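import Mathlib

namespace Vale.Agent.P344

/-- A gate of a linear circuit: sum, difference or scalar multiple of earlier values, which are
referred to by their position in the list of values computed so far. -/
inductive Gate where
  | add (i j : ℕ)
  | sub (i j : ℕ)
  | smul (c : ℂ) (i : ℕ)

/-- The value of a gate, given the list of values available so far
(a position outside the list reads the constant `0`). -/
noncomputable def Gate.eval (vals : List ℂ) : Gate → ℂ
  | .add i j => vals.getD i 0 + vals.getD j 0
  | .sub i j => vals.getD i 0 - vals.getD j 0
  | .smul c i => c * vals.getD i 0

/-- All values of a circuit: start with the constant `0` and the inputs, and append the value of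
each gate in turn. -/
noncomputable def values {n : ℕ} (x : Fin n → ℂ) (gates : List Gate) : List ℂ :=
  gates.foldl (fun vals g => vals ++ [g.eval vals]) (0 :: List.ofFn x)

/-- The circuit `gates` with designated outputs `out` computes `F_n x` exactly for every `x`. -/
def Computes (n : ℕ) (gates : List Gate) (out : Fin n → ℕ) : Prop :=
  ∀ (x : Fin n → ℂ) (j : Fin n), (values x gates).getD (out j) 0 =
    ∑ k : Fin n, Complex.exp (2 * Real.pi * Complex.I / n) ^ ((j : ℕ) * (k : ℕ)) * x k

/-- `L n`: the least number of gates of a linear circuit computing `F_n`. -/
noncomputable def L (n : ℕ) : ℕ :=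
  sInf {s | ∃ (gates : List Gate) (out : Fin n → ℕ), gates.length = s ∧ Computes n gates out}

end Vale.Agent.P344
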