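import Mathlib
import Vale.Agent.P344.Defs

/-! An abstract calculus for the cost of linear circuits. -/

namespace Vale.Agent.P344

open scoped Classical

variable {V : Type} [AddCommGroup V] [Module ℂ V]

inductive Step : Set V → ℕ → Set V → Prop
  | refl (A : Set V) : Step A 0 A
  | add {A : Set V} {n : ℕ} {B : Set V} {u v : V} : Step A n B → u ∈ B → v ∈ B →
      Step A (n + 1) (insert (u + v) B)
  | smul {A : Set V} {n : ℕ} {B : Set V} (c : ℂ) {u : V} : Step A n B → u ∈ B →
      Step A (n + 1) (insert (c • u) B)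

theorem Step.subset {A B : Set V} {n : ℕ} (h : Step A n B) : A ⊆ B := by
  induction h with
  | refl => exact le_rfl
  | add _ _ _ ih => exact ih.trans (Set.subset_insert _ _)
  | smul _ _ _ ih => exact ih.trans (Set.subset_insert _ _)

theorem Step.trans {A B C : Set V} {n m : ℕ} (h : Step A n B) (h' : Step B m C) :
    Step A (n + m) C := by
  induction h' with
  | refl => exact h
  | add _ hu hv ih => exact Step.add ih hu hv
  | smul c _ hu ih => exact Step.smul c ih hu

/-- starting from the known values `A`, at most `c` gates give a set of known values with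
property `P` -/
def Can (A : Set V) (c : ℝ) (P : Set V → Prop) : Prop :=
  ∃ n B, Step A n B ∧ (n : ℝ) ≤ c ∧ P B

theorem Can.pure {A : Set V} {P : Set V → Prop} (h : P A) : Can A 0 P :=
  ⟨0, A, Step.refl A, by simp, h⟩

theorem Can.mono {A : Set V} {c c' : ℝ} {P P' : Set V → Prop} (h : Can A c P) (hc : c ≤ c')
    (hP : ∀ B, A ⊆ B → P B → P' B) : Can A c' P' := by
  obtain ⟨n, B, h1, h2, h3⟩ := h
  exact ⟨n, B, h1, h2.trans hc, hP B h1.subset h3⟩

theorem Can.bind {A : Set V} {c c' : ℝ} {P P' : Set V → Prop} (h : Can A c P)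
    (h' : ∀ B, A ⊆ B → P B → Can B c' P') : Can A (c + c') P' := by
  obtain ⟨n, B, h1, h2, h3⟩ := h
  obtain ⟨m, C, h4, h5, h6⟩ := h' B h1.subset h3
  exact ⟨n + m, C, h1.trans h4, by push_cast; linarith, h6⟩

theorem Can.finset {A : Set V} {ι : Type*} (s : Finset ι) (c : ι → ℝ) (P : ι → Set V → Prop)
    (hm : ∀ i B B', B ⊆ B' → P i B → P i B')
    (h : ∀ i ∈ s, ∀ B, A ⊆ B → Can B (c i) (P i)) :
    Can A (∑ i ∈ s, c i) (fun B => ∀ i ∈ s, P i B) := by
  induction s using Finset.induction_on with
  | empty => simpa using Can.pure (by simp)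
  | insert a s ha ih =>
    rw [Finset.sum_insert ha, add_comm]
    refine (ih fun i hi => h i (Finset.mem_insert_of_mem hi)).bind fun B hB hP => ?_
    refine (h a (Finset.mem_insert_self _ _) B hB).mono le_rfl fun B' hB' hP' i hi => ?_
    rcases Finset.mem_insert.mp hi with rfl | hi
    · exact hP'
    · exact hm i B B' hB' (hP i hi)

theorem Can.all {A : Set V} {ι : Type*} [Fintype ι] (c : ι → ℝ) (P : ι → Set V → Prop)
    (hm : ∀ i B B', B ⊆ B' → P i B → P i B')
    (h : ∀ i, ∀ B, A ⊆ B → Can B (c i) (P i)) :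
    Can A (∑ i, c i) (fun B => ∀ i, P i B) :=
  (Can.finset Finset.univ c P hm fun i _ => h i).mono le_rfl
    fun _ _ hP i => hP i (Finset.mem_univ i)

theorem Can.smul {A : Set V} (c : ℂ) {u : V} (hu : u ∈ A) : Can A 1 (fun B => c • u ∈ B) :=
  ⟨1, _, Step.smul c (Step.refl A) hu, by simp, Set.mem_insert _ _⟩

theorem Can.add {A : Set V} {u v : V} (hu : u ∈ A) (hv : v ∈ A) :
    Can A 1 (fun B => u + v ∈ B) :=
  ⟨1, _, Step.add (Step.refl A) hu hv, by simp, Set.mem_insert _ _⟩

theorem Can.lincomb {A : Set V} (h0 : (0 : V) ∈ A) {ι : Type*} (s : Finset ι) (c : ι → ℂ)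
    (x : ι → V) (hx : ∀ i ∈ s, x i ∈ A) :
    Can A (2 * s.card) (fun B => ∑ i ∈ s, c i • x i ∈ B) := by
  induction s using Finset.induction_on with
  | empty => simpa using Can.pure h0
  | insert a s ha ih =>
    have h1 := (ih fun i hi => hx i (Finset.mem_insert_of_mem hi)).bind fun B hB hP =>
      (Can.smul (c a) (hB (hx a (Finset.mem_insert_self _ _)))).bind fun B' hB' hP' =>
        Can.add hP' (hB' hP)
    refine h1.mono (le_of_eq ?_) fun B _ hP => by rwa [Finset.sum_insert ha]
    rw [Finset.card_insert_of_notMem ha]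
    push_cast
    ring

variable {I O J : Type} [Fintype I] [Fintype J]

/-- action of a matrix on a vector of values -/
def app (M : Matrix O I ℂ) (x : I → V) : O → V := fun o => ∑ i, M o i • x i

theorem app_mul (N : Matrix O J ℂ) (M : Matrix J I ℂ) (x : I → V) :
    app (N * M) x = app N (app M x) := by
  funext o
  simp only [app, Matrix.mul_apply, Finset.sum_smul, Finset.smul_sum, smul_smul]
  exact Finset.sum_comm

theorem app_one [DecidableEq I] (x : I → V) : app (1 : Matrix I I ℂ) x = x := by
  funext o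
  simp [app, Matrix.one_apply]

theorem app_sum {κ : Type*} (s : Finset κ) (M : Matrix O I ℂ) (c : κ → ℂ) (x : κ → I → V) :
    app M (∑ k ∈ s, c k • x k) = ∑ k ∈ s, c k • app M (x k) := by
  funext o
  simp only [app, Finset.sum_apply, Pi.smul_apply, Finset.smul_sum, smul_smul]
  rw [Finset.sum_comm]
  exact Finset.sum_congr rfl fun _ _ => Finset.sum_congr rfl fun _ _ => by rw [mul_comm]

def Known (A : Set V) (x : O → V) : Prop := ∀ o, x o ∈ A

omit [AddCommGroup V] [Module ℂ V] in
theorem Known.mono {A B : Set V} {x : O → V} (h : Known A x) (hB : A ⊆ B) : Known B x :=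
  fun o => hB (h o)

variable (V) in
def Cost (M : Matrix O I ℂ) (c : ℝ) : Prop :=
  ∀ (x : I → V) (A : Set V), (0 : V) ∈ A → Known A x → Can A c (fun B => Known B (app M x))

theorem Cost.mono {M : Matrix O I ℂ} {c c' : ℝ} (h : Cost V M c) (hc : c ≤ c') : Cost V M c' :=
  fun x A h0 hx => (h x A h0 hx).mono hc fun _ _ hP => hP

theorem Cost.mul {N : Matrix O J ℂ} {M : Matrix J I ℂ} {c c' : ℝ} (hN : Cost V N c')
    (hM : Cost V M c) : Cost V (N * M) (c' + c) := by
  intro x A h0 hx
  rw [add_comm, app_mul]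
  exact (hM x A h0 hx).bind fun B hB hP => hN _ B (hB h0) hP

theorem Cost.select [DecidableEq I] (f : O → I) :
    Cost V (Matrix.of fun o i => if i = f o then (1 : ℂ) else 0) 0 :=
  fun x A _ hx => Can.pure fun o => by simpa [app] using hx (f o)

theorem Cost.trivial [Fintype O] (M : Matrix O I ℂ) :
    Cost V M (Fintype.card O * (2 * Fintype.card I)) := by
  intro x A h0 hx
  have := Can.all (A := A) (fun _ : O => (2 * Fintype.card I : ℝ)) (fun o B => app M x o ∈ B)
    (fun _ _ _ hB h => hB h) (fun o B hB =>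
      Can.lincomb (hB h0) Finset.univ (M o) x fun i _ => hB (hx i))
  simpa [Known] using this

theorem Cost.submatrix {I' O' : Type} [Fintype I'] {M : Matrix O I ℂ} {c : ℝ} (h : Cost V M c)
    (f : O' → O) (g : I' → I) (hg : Function.Injective g) : Cost V (M.submatrix f g) c := by
  intro x A h0 hx
  refine (h (Function.extend g x 0) A h0 ?_).mono le_rfl fun B _ hP o => ?_
  · intro i
    by_cases hi : ∃ i', g i' = i
    · obtain ⟨i', rfl⟩ := hi
      rw [hg.extend_apply]
      exact hx i'
    · rw [Function.extend_apply' _ _ _ hi]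
      exact h0
  · convert hP (f o) using 1
    simp only [app, Matrix.submatrix_apply]
    symm
    rw [← Finset.sum_subset (Finset.subset_univ (Finset.univ.map ⟨g, hg⟩)), Finset.sum_map]
    · exact Finset.sum_congr rfl fun i' _ => by simp [hg.extend_apply]
    · intro i _ hi
      rw [Function.extend_apply' _ _ _ (by simpa using hi)]
      simp

theorem Cost.of_eq {M M' : Matrix O I ℂ} {c : ℝ} (h : Cost V M c) (e : M' = M) : Cost V M' c :=
  e ▸ h

/-- block diagonal matrices -/
noncomputable def blocks {P : Type} (M : P → Matrix O I ℂ) : Matrix (P × O) (P × I) ℂ :=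
  fun o i => if o.1 = i.1 then M o.1 o.2 i.2 else 0

theorem Cost.blocks {P : Type} [Fintype P] {M : P → Matrix O I ℂ} {c : P → ℝ}
    (h : ∀ p, Cost V (M p) (c p)) : Cost V (blocks M) (∑ p, c p) := by
  intro x A h0 hx
  refine (Can.all c (fun p B => Known B (app (M p) fun i => x (p, i)))
    (fun _ _ _ hB h => h.mono hB) (fun p B hB => h p _ B (hB h0) fun i => hB (hx _))).mono
      le_rfl fun B _ hP o => ?_
  convert hP o.1 o.2 using 1
  simp [app, P344.blocks, Fintype.sum_prod_type]

/-- matrices with at most one nonzero entry in each row -/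
def IsMono (M : Matrix O I ℂ) : Prop :=
  ∃ (f : O → I) (c : O → ℂ), ∀ o i, M o i = if i = f o then c o else 0

theorem IsMono.cost [Fintype O] {M : Matrix O I ℂ} (h : IsMono M) :
    Cost V M (Fintype.card O) := by
  obtain ⟨f, c, h⟩ := h
  intro x A _ hx
  have := Can.all (A := A) (fun _ : O => (1 : ℝ)) (fun o B => app M x o ∈ B)
    (fun _ _ _ hB h => hB h) (fun o B hB => by
      have := Can.smul (c o) (hB (hx (f o)))
      simpa [app, h] using this)
  simpa [Known] using this

theorem values_append {n : ℕ} (x : Fin n → ℂ) (gates : List Gate) (g : Gate) :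
    values x (gates ++ [g]) = values x gates ++ [g.eval (values x gates)] := by
  simp [values]

theorem values_length {n : ℕ} (x : Fin n → ℂ) (gates : List Gate) :
    (values x gates).length = n + 1 + gates.length := by
  induction gates using List.reverseRecOn with
  | nil => simp [values]
  | append_singleton gs g ih => rw [values_append]; simp [ih]; ring

theorem Step.gates {n : ℕ} {s : ℕ} {B : Set ((Fin n → ℂ) → ℂ)}
    (h : Step (insert 0 (Set.range fun (k : Fin n) (x : Fin n → ℂ) => x k)) s B) :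
    ∃ gates : List Gate, gates.length = s ∧
      ∀ f ∈ B, ∃ i < n + 1 + s, ∀ x, (values x gates).getD i 0 = f x := by
  generalize hA : insert (0 : (Fin n → ℂ) → ℂ)
    (Set.range fun (k : Fin n) (x : Fin n → ℂ) => x k) = A at h
  have keep : ∀ (gates : List Gate) (g : Gate) (i : ℕ) (x : Fin n → ℂ), i < n + 1 + gates.length →
      (values x (gates ++ [g])).getD i 0 = (values x gates).getD i 0 := by
    intro gates g i x hi
    rw [values_append, List.getD_append _ _ _ _ (by rwa [values_length])]
  have new : ∀ (gates : List Gate) (g : Gate) (x : Fin n → ℂ),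
      (values x (gates ++ [g])).getD (n + 1 + gates.length) 0 = g.eval (values x gates) := by
    intro gates g x
    rw [values_append, List.getD_append_right _ _ _ _ (by rw [values_length]), values_length]
    simp
  induction h with
  | refl =>
    subst hA
    refine ⟨[], rfl, ?_⟩
    rintro f (rfl | ⟨k, rfl⟩)
    · exact ⟨0, by omega, fun x => by simp [values]⟩
    · exact ⟨k + 1, by omega, fun x => by simp [values]⟩
  | add _ hu hv ih =>
    obtain ⟨gates, hl, H⟩ := ih
    obtain ⟨i, hi, hi'⟩ := H _ hu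
    obtain ⟨j, hj, hj'⟩ := H _ hv
    refine ⟨gates ++ [Gate.add i j], by simp [hl], ?_⟩
    rintro f (rfl | hf)
    · refine ⟨_, by omega, fun x => (hl ▸ new gates _ x).trans ?_⟩
      simp only [Gate.eval, hi', hj', Pi.add_apply]
    · obtain ⟨k, hk, hk'⟩ := H f hf
      exact ⟨k, by omega, fun x => by rw [keep _ _ _ _ (by omega), hk']⟩
  | smul c _ hu ih =>
    obtain ⟨gates, hl, H⟩ := ih
    obtain ⟨i, hi, hi'⟩ := H _ hu
    refine ⟨gates ++ [Gate.smul c i], by simp [hl], ?_⟩
    rintro f (rfl | hf)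
    · refine ⟨_, by omega, fun x => (hl ▸ new gates _ x).trans ?_⟩
      simp only [Gate.eval, hi', Pi.smul_apply, smul_eq_mul]
    · obtain ⟨k, hk, hk'⟩ := H f hf
      exact ⟨k, by omega, fun x => by rw [keep _ _ _ _ (by omega), hk']⟩

theorem exists_circuit {n : ℕ} {c : ℝ} (h : Cost ((Fin n → ℂ) → ℂ) (Matrix.of fun j k : Fin n =>
    Complex.exp (2 * Real.pi * Complex.I / n) ^ ((j : ℕ) * (k : ℕ))) c) :
    ∃ (gates : List Gate) (out : Fin n → ℕ), (gates.length : ℝ) ≤ c ∧ Computes n gates out := by
  obtain ⟨s, B, h1, h2, h3⟩ := h (fun k x => x k)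
    (insert 0 (Set.range fun (k : Fin n) (x : Fin n → ℂ) => x k)) (Set.mem_insert _ _)
    (fun k => Set.mem_insert_of_mem _ ⟨k, rfl⟩)
  obtain ⟨gates, hl, H⟩ := h1.gates
  choose out _ hout using fun j => H _ (h3 j)
  exact ⟨gates, out, hl ▸ h2, fun x j => by rw [hout]; simp [app]⟩

theorem L_le {n : ℕ} {c : ℝ} (h : Cost ((Fin n → ℂ) → ℂ) (Matrix.of fun j k : Fin n =>
    Complex.exp (2 * Real.pi * Complex.I / n) ^ ((j : ℕ) * (k : ℕ))) c) : (L n : ℝ) ≤ c := by
  obtain ⟨gates, out, h1, h2⟩ := exists_circuit h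
  have : L n ≤ gates.length := Nat.sInf_le ⟨gates, out, rfl, h2⟩
  exact le_trans (by exact_mod_cast this) h1

theorem L_spec (n : ℕ) :
    ∃ (gates : List Gate) (out : Fin n → ℕ), gates.length = L n ∧ Computes n gates out := by
  obtain ⟨gates, out, -, h2⟩ := exists_circuit (n := n) (Cost.trivial _)
  exact Nat.sInf_mem (s := {s | ∃ (gates : List Gate) (out : Fin n → ℕ), gates.length = s ∧
    Computes n gates out}) ⟨_, gates, out, rfl, h2⟩

end Vale.Agent.P344
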