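import Mathlib
import Vale.Agent.P344.Cost

/-! Tensor products of matrices and Fourier matrices of finite abelian groups. -/

namespace Vale.Agent.P344

open scoped Classical

variable {V : Type} [AddCommGroup V] [Module ℂ V]

section
variable {ι : Type} [Fintype ι] {O I J : ι → Type}

def piT (M : ∀ j, Matrix (O j) (I j) ℂ) : Matrix (∀ j, O j) (∀ j, I j) ℂ :=
  fun o i => ∏ j, M j (o j) (i j)

theorem piT_mul [∀ j, Fintype (J j)] (M : ∀ j, Matrix (O j) (J j) ℂ)
    (N : ∀ j, Matrix (J j) (I j) ℂ) : piT M * piT N = piT fun j => M j * N j := by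
  ext o i
  simp only [piT, Matrix.mul_apply, Finset.prod_univ_sum, Fintype.piFinset_univ,
    Finset.prod_mul_distrib]

theorem prod_ite_eq_pi (o i : ∀ j, I j) (c : ι → ℂ) :
    ∏ j, (if o j = i j then c j else 0) = if o = i then ∏ j, c j else 0 := by
  split_ifs with h
  · subst h; simp
  · obtain ⟨j, hj⟩ := Function.ne_iff.mp h
    exact Finset.prod_eq_zero (Finset.mem_univ j) (if_neg hj)

theorem IsMono.piT {M : ∀ j, Matrix (O j) (I j) ℂ} (h : ∀ j, IsMono (M j)) : IsMono (piT M) := by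
  choose f c h using h
  refine ⟨fun o j => f j (o j), fun o => ∏ j, c j (o j), fun o i => ?_⟩
  simp only [P344.piT, h]
  convert prod_ite_eq_pi i (fun j => f j (o j)) (fun j => c j (o j))

end

variable {O I J : Type}

noncomputable def kI (M : Matrix O I ℂ) (B : Type) : Matrix (O × B) (I × B) ℂ :=
  fun o i => if o.2 = i.2 then M o.1 i.1 else 0

theorem kI_mul [Fintype J] (M : Matrix O J ℂ) (N : Matrix J I ℂ) (B : Type) [Fintype B] :
    kI M B * kI N B = kI (M * N) B := by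
  ext o i
  simp only [kI, Matrix.mul_apply, Fintype.sum_prod_type]
  by_cases h : o.2 = i.2
  · simp [h]
  · simp [h]

theorem kI_one [DecidableEq I] (B : Type) [DecidableEq (I × B)] :
    kI (1 : Matrix I I ℂ) B = 1 := by
  ext o i
  simp only [kI, Matrix.one_apply, Prod.ext_iff]
  split_ifs <;> simp_all

theorem IsMono.kI {M : Matrix O I ℂ} (h : IsMono M) (B : Type) : IsMono (kI M B) := by
  obtain ⟨f, c, h⟩ := h
  refine ⟨fun o => (f o.1, o.2), fun o => c o.1, fun o i => ?_⟩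
  simp only [P344.kI, h, Prod.ext_iff]
  split_ifs <;> simp_all

theorem Cost.kI [Fintype I] {M : Matrix O I ℂ} {c : ℝ} (h : Cost V M c) (B : Type) [Fintype B] :
    Cost V (kI M B) (Fintype.card B * c) := by
  have := (Cost.blocks (P := B) (M := fun _ => M) (c := fun _ => c) fun _ => h).submatrix
    Prod.swap Prod.swap Prod.swap_injective
  simp only [Finset.sum_const, Finset.card_univ, nsmul_eq_mul] at this
  exact this

theorem Cost.batch [Fintype I] {M : Matrix O I ℂ} {c : ℝ} {B E : Type} [Fintype B] [Fintype E]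
    (h : Cost V (P344.kI M B) c) (nb : ℕ) (hE : Fintype.card E ≤ nb * Fintype.card B) :
    Cost V (P344.kI M E) (nb * c) := by
  obtain ⟨e⟩ : Nonempty (E ↪ B × Fin nb) :=
    Function.Embedding.nonempty_of_card_le (by simpa [mul_comm] using hE)
  have h1 := (h.kI (Fin nb)).submatrix (fun o : O × E => ((o.1, (e o.2).1), (e o.2).2))
    (fun o : I × E => ((o.1, (e o.2).1), (e o.2).2)) (by
      rintro ⟨a, b⟩ ⟨a', b'⟩ hh
      simp only [Prod.mk.injEq] at hh
      exact Prod.ext hh.1.1 (e.injective (Prod.ext hh.1.2 hh.2)))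
  simp only [Fintype.card_fin] at h1
  refine h1.of_eq ?_
  ext o i
  have : o.2 = i.2 ↔ (e o.2).1 = (e i.2).1 ∧ (e o.2).2 = (e i.2).2 := by
    rw [← Prod.ext_iff, e.injective.eq_iff]
  simp only [P344.kI, Matrix.submatrix_apply, this]
  split_ifs <;> simp_all

structure IsFT {G : Type} [AddCommGroup G] [Fintype G] (Φ : Matrix G G ℂ) : Prop where
  zero : ∀ ξ, Φ ξ 0 = 1
  add : ∀ ξ x y, Φ ξ (x + y) = Φ ξ x * Φ ξ y
  symm : ∀ ξ x, Φ ξ x = Φ x ξ
  orth : ∀ x, ∑ ξ, Φ ξ x = if x = 0 then (Fintype.card G : ℂ) else 0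

section
variable {G : Type} [AddCommGroup G] [Fintype G] {Φ : Matrix G G ℂ}

theorem IsFT.mul_neg (h : IsFT Φ) (ξ x : G) : Φ ξ x * Φ ξ (-x) = 1 := by
  rw [← h.add, add_neg_cancel, h.zero]

theorem IsFT.ne_zero (h : IsFT Φ) (ξ x : G) : Φ ξ x ≠ 0 :=
  left_ne_zero_of_mul_eq_one (h.mul_neg ξ x)

theorem IsFT.neg_symm (h : IsFT Φ) (ξ x : G) : Φ ξ (-x) = Φ x (-ξ) := by
  apply mul_left_cancel₀ (h.ne_zero ξ x)
  rw [h.mul_neg, h.symm ξ x, h.mul_neg]

theorem card_ne_zero' : (Fintype.card G : ℂ) ≠ 0 := by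
  exact_mod_cast Fintype.card_ne_zero

theorem IsFT.mul_inv [DecidableEq G] (h : IsFT Φ) :
    Φ * (Φ.submatrix Neg.neg id) = (Fintype.card G : ℂ) • (1 : Matrix G G ℂ) := by
  ext ξ η
  simp only [Matrix.mul_apply, Matrix.submatrix_apply, id, Matrix.smul_apply, Matrix.one_apply]
  have : ∀ y, Φ ξ y * Φ (-y) η = Φ y (ξ - η) := by
    intro y
    rw [h.symm (-y) η, h.neg_symm, sub_eq_add_neg, h.add, h.symm ξ y]
  simp only [this, h.orth, sub_eq_zero]
  split_ifs <;> simp

/-- Fourier multiplier -/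
noncomputable def op (Φ : Matrix G G ℂ) (μ : G → ℂ) : Matrix G G ℂ :=
  (Fintype.card G : ℂ)⁻¹ • (Φ.submatrix Neg.neg id * Matrix.diagonal μ * Φ)

theorem IsFT.op_apply (h : IsFT Φ) (μ : G → ℂ) (x y : G) :
    op Φ μ x y = (Fintype.card G : ℂ)⁻¹ * ∑ ξ, μ ξ * Φ ξ (y - x) := by
  simp only [op, Matrix.smul_apply, smul_eq_mul]
  rw [Matrix.mul_apply]
  congr 1
  refine Finset.sum_congr rfl fun ξ _ => ?_
  rw [Matrix.mul_diagonal, Matrix.submatrix_apply, id, sub_eq_add_neg, h.add, h.symm (-x) ξ]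
  ring

theorem IsFT.op_mul (h : IsFT Φ) (μ ν : G → ℂ) : op Φ μ * op Φ ν = op Φ (μ * ν) := by
  simp only [op, Matrix.smul_mul, Matrix.mul_smul]
  congr 1
  have : Φ.submatrix Neg.neg id * Matrix.diagonal μ * Φ *
      (Φ.submatrix Neg.neg id * Matrix.diagonal ν * Φ) =
      Φ.submatrix Neg.neg id * Matrix.diagonal μ * (Φ * Φ.submatrix Neg.neg id) *
        Matrix.diagonal ν * Φ := by simp only [Matrix.mul_assoc]
  rw [this, h.mul_inv, Matrix.mul_smul, Matrix.smul_mul, Matrix.smul_mul, smul_smul,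
    inv_mul_cancel₀ card_ne_zero', one_smul, Matrix.mul_one,
    Matrix.mul_assoc _ (Matrix.diagonal μ), Matrix.diagonal_mul_diagonal]
  rfl

theorem IsFT.op_conv (h : IsFT Φ) (κ : G → ℂ) (x y : G) :
    op Φ (fun ξ => ∑ z, κ z * Φ ξ z) x y = κ (x - y) := by
  rw [h.op_apply]
  simp only [Finset.sum_mul, mul_assoc, ← h.add]
  rw [Finset.sum_comm]
  simp only [← Finset.mul_sum, h.orth]
  have : ∀ z, z + (y - x) = 0 ↔ z = x - y := fun z => by
    rw [add_eq_zero_iff_eq_neg, neg_sub]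
  simp only [this, mul_ite, mul_zero, Finset.sum_ite_eq', Finset.mem_univ, if_true]
  field_simp [card_ne_zero']

theorem IsFT.op_one [DecidableEq G] (h : IsFT Φ) : op Φ 1 = 1 := by
  ext x y
  have := h.op_conv (fun z => if z = 0 then 1 else 0) x y
  simp only [ite_mul, one_mul, zero_mul, Finset.sum_ite_eq', Finset.mem_univ, if_true,
    h.zero] at this
  rw [Matrix.one_apply]
  simp only [sub_eq_zero] at this
  convert this
  rfl

theorem cost_op {c : ℝ} (hc : Cost V Φ c) (μ : G → ℂ) :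
    Cost V (op Φ μ) (2 * c + Fintype.card G) := by
  have h1 : IsMono (Matrix.diagonal fun ξ => (Fintype.card G : ℂ)⁻¹ * μ ξ) :=
    ⟨id, fun ξ => (Fintype.card G : ℂ)⁻¹ * μ ξ, fun o i => by
      simp [Matrix.diagonal_apply, eq_comm]⟩
  have h2 := ((hc.submatrix Neg.neg id Function.injective_id).mul h1.cost).mul hc
  refine (h2.mono (le_of_eq (by ring))).of_eq ?_
  simp only [op]
  rw [← Matrix.smul_mul, ← Matrix.mul_smul, ← Matrix.diagonal_smul]
  rfl

end

noncomputable def zFT (r : ℕ) [NeZero r] : Matrix (ZMod r) (ZMod r) ℂ :=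
  fun ξ x => ZMod.stdAddChar (ξ * x)

theorem isFT_zFT (r : ℕ) [NeZero r] : IsFT (zFT r) where
  zero := fun ξ => by simp [zFT]
  add := fun ξ x y => by simp [zFT, mul_add, AddChar.map_add_eq_mul]
  symm := fun ξ x => by simp [zFT, mul_comm]
  orth := fun x => by
    have := AddChar.sum_mulShift x (ZMod.isPrimitive_stdAddChar r)
    simp only [zFT]
    rw [this]
    split_ifs <;> simp

theorem IsFT.piT {ι : Type} [Fintype ι] {G : ι → Type} [∀ j, AddCommGroup (G j)]
    [∀ j, Fintype (G j)] {Φ : ∀ j, Matrix (G j) (G j) ℂ} (h : ∀ j, IsFT (Φ j)) :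
    IsFT (piT Φ) where
  zero := fun ξ => by simp [P344.piT, (h _).zero]
  add := fun ξ x y => by simp [P344.piT, (h _).add, Finset.prod_mul_distrib]
  symm := fun ξ x => Finset.prod_congr rfl fun j _ => (h j).symm _ _
  orth := fun x => by
    have h1 := Finset.prod_univ_sum (fun j => (Finset.univ : Finset (G j)))
      (fun j a => Φ j a (x j))
    rw [Fintype.piFinset_univ] at h1
    simp only [P344.piT]
    rw [← h1]
    simp only [(h _).orth]
    have := prod_ite_eq_pi x 0 (fun j => (Fintype.card (G j) : ℂ))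
    simp only [Pi.zero_apply] at this
    rw [Fintype.card_pi]
    push_cast
    convert this

def kron {G H : Type} (Φ : Matrix G G ℂ) (Ψ : Matrix H H ℂ) : Matrix (G × H) (G × H) ℂ :=
  fun a b => Φ a.1 b.1 * Ψ a.2 b.2

theorem IsFT.kron {G H : Type} [AddCommGroup G] [Fintype G] [AddCommGroup H] [Fintype H]
    {Φ : Matrix G G ℂ} {Ψ : Matrix H H ℂ} (h : IsFT Φ) (h' : IsFT Ψ) : IsFT (kron Φ Ψ) where
  zero := fun ξ => by simp [P344.kron, h.zero, h'.zero]
  add := fun ξ x y => by simp only [P344.kron, Prod.fst_add, Prod.snd_add, h.add, h'.add]; ring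
  symm := fun ξ x => by simp only [P344.kron]; rw [h.symm, h'.symm]
  orth := fun x => by
    simp only [P344.kron, Fintype.sum_prod_type, ← Finset.sum_mul_sum, h.orth, h'.orth,
      Prod.ext_iff, Fintype.card_prod]
    split_ifs <;> simp_all

theorem Cost.kron {G H : Type} [Fintype G] [Fintype H] {Φ : Matrix G G ℂ} {Ψ : Matrix H H ℂ}
    {c c' : ℝ} (h : Cost V (P344.kI Φ H) c) (h' : Cost V Ψ c') :
    Cost V (kron Φ Ψ) (c + Fintype.card G * c') := by
  have h1 := Cost.blocks (P := G) (M := fun _ => Ψ) (c := fun _ => c') fun _ => h'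
  simp only [Finset.sum_const, Finset.card_univ, nsmul_eq_mul] at h1
  refine (h.mul h1).of_eq ?_
  ext a b
  simp [P344.kron, P344.kI, P344.blocks, Matrix.mul_apply, Fintype.sum_prod_type]

end Vale.Agent.P344
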