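import Mathlib
import Vale.Agent.P344.Fourier

/-! In-place words in full layers of the fixed two by two matrix `Cm`. -/

namespace Vale.Agent.P344

open scoped Classical
open Matrix

noncomputable def Cm : Matrix (ZMod 2) (ZMod 2) ℂ :=
  fun a b => if a = b then (1 + Complex.I) / 2 else (1 - Complex.I) / 2

variable {I I' : Type}

def IsLayer (L : Matrix I I ℂ) : Prop :=
  ∃ (P : Type) (_ : Fintype P) (e : I ≃ P × ZMod 2), L = (blocks fun _ : P => Cm).submatrix e e

def Word [Fintype I] : ℕ → Matrix I I ℂ → Prop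
  | 0, M => IsMono M
  | K + 1, M => ∃ D L N : Matrix I I ℂ, IsMono D ∧ IsLayer L ∧ Word K N ∧ M = D * L * N

theorem IsMono.mul {O J : Type} [Fintype J] {M : Matrix O J ℂ} {N : Matrix J I ℂ} (h : IsMono M)
    (h' : IsMono N) : IsMono (M * N) := by
  obtain ⟨f, c, h⟩ := h
  obtain ⟨g, d, h'⟩ := h'
  refine ⟨g ∘ f, fun o => c o * d (f o), fun o i => ?_⟩
  simp only [Matrix.mul_apply, h, ite_mul, zero_mul, Finset.sum_ite_eq', Finset.mem_univ, if_true]
  simp [h']

theorem isMono_one [DecidableEq I] : IsMono (1 : Matrix I I ℂ) :=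
  ⟨id, fun _ => 1, fun o i => by simp [Matrix.one_apply, eq_comm]⟩

theorem isMono_diagonal [DecidableEq I] (d : I → ℂ) : IsMono (Matrix.diagonal d) :=
  ⟨id, d, fun o i => by simp [Matrix.diagonal_apply, eq_comm]⟩

theorem IsMono.submatrix {O O' : Type} {M : Matrix O I ℂ} (h : IsMono M) (e : O' → O)
    (f : I' ≃ I) : IsMono (M.submatrix e f) := by
  obtain ⟨g, c, h⟩ := h
  refine ⟨fun o => f.symm (g (e o)), fun o => c (e o), fun o i => ?_⟩
  simp [h, Equiv.eq_symm_apply]

theorem IsMono.fromBlocks {M : Matrix I I ℂ} {N : Matrix I' I' ℂ} (h : IsMono M) (h' : IsMono N) :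
    IsMono (fromBlocks M 0 0 N) := by
  obtain ⟨f, c, h⟩ := h
  obtain ⟨g, d, h'⟩ := h'
  refine ⟨Sum.map f g, Sum.elim c d, ?_⟩
  rintro (o | o) (i | i) <;> simp [h, h']

theorem IsMono.blocks {P : Type} {M : P → Matrix I I ℂ} (h : ∀ p, IsMono (M p)) :
    IsMono (blocks M) := by
  choose f c h using h
  refine ⟨fun o => (o.1, f o.1 o.2), fun o => c o.1 o.2, fun o i => ?_⟩
  simp only [P344.blocks, h, Prod.ext_iff]
  split_ifs <;> simp_all

theorem blocks_mul {P O J : Type} [Fintype P] [Fintype J] (M : P → Matrix O J ℂ)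
    (N : P → Matrix J I ℂ) : blocks M * blocks N = blocks fun p => M p * N p := by
  ext o i
  simp only [blocks, Matrix.mul_apply, Fintype.sum_prod_type]
  by_cases h : o.1 = i.1
  · simp [h]
  · simp [h]

theorem blocks_one {P : Type} [DecidableEq I] [DecidableEq (P × I)] :
    (blocks fun _ : P => (1 : Matrix I I ℂ)) = 1 := by
  ext o i
  simp only [blocks, Matrix.one_apply, Prod.ext_iff]
  split_ifs <;> simp_all

theorem IsLayer.reindex {L : Matrix I I ℂ} (h : IsLayer L) (e : I' ≃ I) :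
    IsLayer (L.submatrix e e) := by
  obtain ⟨P, _, f, rfl⟩ := h
  exact ⟨P, inferInstance, e.trans f, rfl⟩

theorem IsLayer.fromBlocks {L : Matrix I I ℂ} {L' : Matrix I' I' ℂ} (h : IsLayer L)
    (h' : IsLayer L') : IsLayer (fromBlocks L 0 0 L') := by
  obtain ⟨P, _, f, rfl⟩ := h
  obtain ⟨P', _, f', rfl⟩ := h'
  refine ⟨P ⊕ P', inferInstance, (f.sumCongr f').trans (Equiv.sumProdDistrib _ _ _).symm, ?_⟩
  ext (o | o) (i | i) <;> simp [blocks, Equiv.sumProdDistrib]

theorem IsLayer.blocks {Q : Type} [Fintype Q] {L : Q → Matrix I I ℂ} (h : ∀ q, IsLayer (L q)) :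
    IsLayer (blocks L) := by
  choose P hP e h using h
  refine ⟨Σ q, P q, inferInstance,
    { toFun := fun o => (⟨o.1, (e o.1 o.2).1⟩, (e o.1 o.2).2)
      invFun := fun o => (o.1.1, (e o.1.1).symm (o.1.2, o.2))
      left_inv := fun o => by simp
      right_inv := fun o => by simp }, ?_⟩
  ext ⟨q, o⟩ ⟨q', i⟩
  by_cases hq : q = q'
  · subst hq
    simp [P344.blocks, h]
  · simp [P344.blocks, hq]

variable [Fintype I] [Fintype I']

theorem Word.mono_mul {K : ℕ} {D M : Matrix I I ℂ} (hD : IsMono D) (h : Word K M) :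
    Word K (D * M) := by
  cases K with
  | zero => exact hD.mul h
  | succ K =>
    obtain ⟨D', L, N, h1, h2, h3, rfl⟩ := h
    exact ⟨D * D', L, N, hD.mul h1, h2, h3, by simp only [Matrix.mul_assoc]⟩

theorem Word.mul {K K' : ℕ} {M M' : Matrix I I ℂ} (h : Word K M) (h' : Word K' M') :
    Word (K + K') (M * M') := by
  induction K generalizing M with
  | zero => rw [zero_add]; exact Word.mono_mul h h'
  | succ K ih =>
    obtain ⟨D, L, N, h1, h2, h3, rfl⟩ := h
    rw [add_right_comm]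
    exact ⟨D, L, N * M', h1, h2, ih h3, by simp only [Matrix.mul_assoc]⟩

theorem Word.mul_mono {K : ℕ} {D M : Matrix I I ℂ} (h : Word K M) (hD : IsMono D) :
    Word K (M * D) := Word.mul (K' := 0) h hD

theorem Word.of_eq {K K' : ℕ} {M M' : Matrix I I ℂ} (h : Word K M) (e : K' = K) (e' : M' = M) :
    Word K' M' := by subst e e'; exact h

theorem Word.reindex {K : ℕ} {M : Matrix I I ℂ} (h : Word K M) (e : I' ≃ I) :
    Word K (M.submatrix e e) := by
  induction K generalizing M with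
  | zero => exact IsMono.submatrix h e e
  | succ K ih =>
    obtain ⟨D, L, N, h1, h2, h3, rfl⟩ := h
    exact ⟨_, _, _, h1.submatrix e e, h2.reindex e, ih h3, by
      rw [Matrix.submatrix_mul_equiv, Matrix.submatrix_mul_equiv]⟩

theorem Word.submatrix {K : ℕ} {M : Matrix I I ℂ} (h : Word K M) (e : I' → I) (f : I' ≃ I) :
    Word K (M.submatrix e f) := by
  refine (Word.mono_mul (isMono_one.submatrix e f) (h.reindex f)).of_eq rfl ?_
  rw [Matrix.submatrix_mul_equiv, Matrix.one_mul]

theorem Word.fromBlocks {K : ℕ} {M : Matrix I I ℂ} {M' : Matrix I' I' ℂ} (h : Word K M)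
    (h' : Word K M') : Word K (fromBlocks M 0 0 M') := by
  induction K generalizing M M' with
  | zero => exact IsMono.fromBlocks h h'
  | succ K ih =>
    obtain ⟨D, L, N, h1, h2, h3, rfl⟩ := h
    obtain ⟨D', L', N', h1', h2', h3', rfl⟩ := h'
    exact ⟨_, _, _, h1.fromBlocks h1', h2.fromBlocks h2', ih h3 h3', by
      simp [Matrix.fromBlocks_multiply]⟩

theorem Word.blocks {P : Type} [Fintype P] {K : ℕ} {M : P → Matrix I I ℂ}
    (h : ∀ p, Word K (M p)) : Word K (blocks M) := by
  induction K generalizing M with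
  | zero => exact IsMono.blocks h
  | succ K ih =>
    choose D L N h1 h2 h3 h4 using h
    exact ⟨_, _, _, IsMono.blocks h1, IsLayer.blocks h2, ih h3, by
      rw [blocks_mul, blocks_mul]; exact congrArg _ (funext h4)⟩

theorem Word.kI {K : ℕ} {M : Matrix I I ℂ} (h : Word K M) (B : Type) [Fintype B] :
    Word K (kI M B) :=
  (Word.blocks (P := B) fun _ => h).reindex (Equiv.prodComm _ _)

theorem isLayer_Cm : IsLayer Cm :=
  ⟨Unit, inferInstance, (Equiv.punitProd _).symm, by ext a b; simp [blocks]⟩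

theorem word_one_Cm : Word 1 Cm :=
  ⟨1, Cm, 1, isMono_one, isLayer_Cm, isMono_one, by simp⟩

theorem zmod2_cases (a : ZMod 2) : a = 0 ∨ a = 1 := by revert a; decide

theorem sum_zmod2 (f : ZMod 2 → ℂ) : ∑ a, f a = f 0 + f 1 := Fin.sum_univ_two f

theorem word_CDC (d : ZMod 2 → ℂ) : Word 2 (Cm * Matrix.diagonal d * Cm) :=
  (word_one_Cm.mul_mono (isMono_diagonal d)).mul word_one_Cm

theorem word_two_one : Word 2 (1 : Matrix (ZMod 2) (ZMod 2) ℂ) := by
  refine (word_CDC 1).submatrix (fun a => a + 1) (Equiv.refl _) |>.of_eq rfl ?_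
  ext a b
  have h2 : (1 + 1 : ZMod 2) = 0 := rfl
  rcases zmod2_cases a with rfl | rfl <;> rcases zmod2_cases b with rfl | rfl <;>
    simp [Matrix.mul_apply, sum_zmod2, Cm, h2, Complex.ext_iff] <;> norm_num

noncomputable def Hd : Matrix (ZMod 2) (ZMod 2) ℂ := fun a b => if a = 1 ∧ b = 1 then -1 else 1

theorem word_Hd : Word 2 Hd := by
  refine (word_CDC fun a => if a = 0 then 1 - Complex.I else 1 + Complex.I).of_eq rfl ?_
  ext a b
  rcases zmod2_cases a with rfl | rfl <;> rcases zmod2_cases b with rfl | rfl <;>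
    simp [Matrix.mul_apply, sum_zmod2, Cm, Hd, Complex.ext_iff, Matrix.diagonal_apply] <;> norm_num

noncomputable def Sh2 : Matrix (ZMod 2) (ZMod 2) ℂ :=
  fun a b => if a = b then 1 else if a = 1 then 5 / 3 else 0

theorem word_Sh2 : Word 4 Sh2 := by
  refine ((Word.mono_mul (isMono_diagonal fun a => if a = 0 then 1 else (4 / 3) * Complex.I)
    (word_CDC fun a => if a = 0 then 3 / 2 else 1 / 2)).mul_mono
    (isMono_diagonal fun a => if a = 0 then -Complex.I else 1 / 2)).mul word_Hd |>.of_eq rfl ?_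
  ext a b
  rcases zmod2_cases a with rfl | rfl <;> rcases zmod2_cases b with rfl | rfl <;>
    simp [Matrix.mul_apply, sum_zmod2, Cm, Hd, Sh2, Complex.ext_iff, Matrix.diagonal_apply] <;>
    norm_num

theorem word_one_of_even [DecidableEq I] (h : Even (Fintype.card I)) (k : ℕ) :
    Word (2 * k) (1 : Matrix I I ℂ) := by
  obtain ⟨p, hp⟩ := h
  have e : I ≃ Fin p × ZMod 2 := Fintype.equivOfCardEq (by simp [hp]; ring)
  have h2 : Word 2 (1 : Matrix I I ℂ) := by
    refine ((Word.blocks (P := Fin p) fun _ => word_two_one).reindex e).of_eq rfl ?_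
    rw [blocks_one, Matrix.submatrix_one_equiv]
  induction k with
  | zero => exact isMono_one
  | succ k ih => exact (ih.mul h2).of_eq (by ring) (by simp)

theorem Word.pad (h : Even (Fintype.card I)) {K : ℕ} {M : Matrix I I ℂ} (hM : Word K M) (k : ℕ) :
    Word (K + 2 * k) M :=
  (hM.mul (word_one_of_even h k)).of_eq rfl (by simp)

noncomputable def dft (N : ℕ) (ω : ℂ) : Matrix (Fin N) (Fin N) ℂ :=
  fun j k => ω ^ ((j : ℕ) * (k : ℕ))

theorem word_dft_step {K M : ℕ} {ω : ℂ} (h : Word K (dft M (ω ^ 2))) (hω : ω ^ M = -1) :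
    Word (2 + K) (dft (M * 2) ω) := by
  let Ein : Fin M × ZMod 2 ≃ Fin (M * 2) := finProdFinEquiv (m := M) (n := 2)
  let Eout : Fin M × ZMod 2 ≃ Fin (M * 2) :=
    (Equiv.prodComm _ _).trans ((finProdFinEquiv (m := 2) (n := M)).trans (finCongr (mul_comm _ _)))
  have h1 := ((Word.blocks (P := Fin M) fun _ => word_Hd).mul_mono
    (isMono_diagonal fun o : Fin M × ZMod 2 => ω ^ ((o.1 : ℕ) * o.2.val))).mul (h.kI (ZMod 2))
  have h2 : (blocks fun _ : Fin M => Hd) *
      (Matrix.diagonal fun o : Fin M × ZMod 2 => ω ^ ((o.1 : ℕ) * o.2.val)) *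
      kI (dft M (ω ^ 2)) (ZMod 2) = (dft (M * 2) ω).submatrix Eout Ein := by
    ext ⟨j, b⟩ ⟨k, c⟩
    have e1 : ((Eout (j, b) : Fin (M * 2)) : ℕ) = j + M * b.val := rfl
    have e2 : ((Ein (k, c) : Fin (M * 2)) : ℕ) = c.val + 2 * k := rfl
    rw [Matrix.mul_apply]
    simp only [Matrix.mul_diagonal, blocks, kI, Fintype.sum_prod_type, Matrix.submatrix_apply, dft,
      e1, e2]
    simp only [ite_mul, zero_mul, mul_ite, mul_zero, Finset.sum_ite_eq', Finset.mem_univ, if_true,
      Finset.sum_ite_eq]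
    have e3 : (j + M * b.val) * (c.val + 2 * k) =
        j * c.val + 2 * (j * k) + M * (b.val * c.val) + M * (2 * (b.val * k)) := by ring
    rw [e3, pow_add, pow_add, pow_add, pow_mul ω M, pow_mul ω M, hω, pow_mul ω 2, pow_mul (-1) 2]
    have v1 : (1 : ZMod 2).val = 1 := rfl
    rcases zmod2_cases b with rfl | rfl <;> rcases zmod2_cases c with rfl | rfl <;>
      simp [Hd, v1]
  rw [h2] at h1
  refine (h1.submatrix Eout.symm Ein.symm).of_eq rfl ?_
  simp

theorem word_dft (a : ℕ) (ω : ℂ) (h : IsPrimitiveRoot ω (2 ^ a)) : Word (2 * a) (dft (2 ^ a) ω) := by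
  induction a generalizing ω with
  | zero =>
    exact ⟨id, fun _ => 1, fun o i => by
      have h2 : i = o := Subsingleton.elim (α := Fin 1) i o
      simp [dft, h2]⟩
  | succ a ih =>
    have h1 : IsPrimitiveRoot (ω ^ 2) (2 ^ a) := h.pow (by positivity) (by ring)
    have h2 : IsPrimitiveRoot (ω ^ 2 ^ a) 2 := h.pow (by positivity) (by ring)
    exact (word_dft_step (ih _ h1) h2.eq_neg_one_of_two_right).of_eq (by ring) rfl

def zval (R : ℕ) [NeZero R] : ZMod R ≃ Fin R where
  toFun x := ⟨x.val, ZMod.val_lt x⟩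
  invFun k := ((k : ℕ) : ZMod R)
  left_inv x := by simp
  right_inv k := by ext; simp [ZMod.val_natCast, Nat.mod_eq_of_lt k.2]

theorem zFT_eq (R : ℕ) [NeZero R] :
    zFT R = (dft R (Complex.exp (2 * Real.pi * Complex.I / R))).submatrix (zval R) (zval R) := by
  ext ξ x
  have : ξ * x = ((ξ.val * x.val : ℕ) : ℤ) := by simp
  simp only [zFT, Matrix.submatrix_apply, dft, zval, Equiv.coe_fn_mk]
  rw [this, ZMod.stdAddChar_coe, ← Complex.exp_nat_mul]
  congr 1
  push_cast
  ring

theorem word_zFT (a : ℕ) : Word (2 * a) (zFT (2 ^ a)) := by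
  rw [zFT_eq]
  refine Word.reindex (word_dft a _ ?_) _
  exact Complex.isPrimitiveRoot_exp _ (by positivity)

theorem word_op {G : Type} [AddCommGroup G] [Fintype G] {Φ : Matrix G G ℂ} {K : ℕ}
    (h : Word K Φ) (μ : G → ℂ) : Word (K + K) (op Φ μ) := by
  refine (((h.submatrix Neg.neg (Equiv.refl _)).mul_mono
    (isMono_diagonal fun ξ => (Fintype.card G : ℂ)⁻¹ * μ ξ)).mul h).of_eq rfl ?_
  simp only [op]
  rw [← Matrix.smul_mul, ← Matrix.mul_smul, ← Matrix.diagonal_smul]
  rfl

variable {V : Type} [AddCommGroup V] [Module ℂ V]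

/-- the tensor power of `Cm`, applied to a batch of arrays -/
noncomputable def TensB (κ B : Type) [Fintype κ] :
    Matrix ((κ → ZMod 2) × B) ((κ → ZMod 2) × B) ℂ := kI (piT fun _ : κ => Cm) B

theorem cost_pi_layer {ι B : Type} [Fintype ι] [Fintype B] {X : ι → Type} [∀ j, Fintype (X j)]
    {L : ∀ j, Matrix (X j) (X j) ℂ} (h : ∀ j, IsLayer (L j)) {τ : ℝ}
    (hτ : Cost V (TensB ι B) (τ * (2 ^ Fintype.card ι * Fintype.card B))) :
    Cost V (kI (piT L) B) (τ * (Fintype.card (∀ j, X j) * Fintype.card B)) := by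
  choose P hP e h using h
  have h1 := (Cost.blocks (P := ∀ j, P j) (M := fun _ => TensB ι B) fun _ => hτ).submatrix
    (fun o : (∀ j, X j) × B => (fun j => (e j (o.1 j)).1, (fun j => (e j (o.1 j)).2, o.2)))
    (fun o : (∀ j, X j) × B => (fun j => (e j (o.1 j)).1, (fun j => (e j (o.1 j)).2, o.2))) (by
      rintro ⟨a, b⟩ ⟨a', b'⟩ hh
      simp only [Prod.mk.injEq] at hh
      refine Prod.ext (funext fun j => (e j).injective (Prod.ext ?_ ?_)) hh.2.2
      · exact congrFun hh.1 j
      · exact congrFun hh.2.1 j)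
  refine (h1.mono (le_of_eq ?_)).of_eq ?_
  · have : Fintype.card (∀ j, X j) = Fintype.card (∀ j, P j) * 2 ^ Fintype.card ι := by
      simp only [Fintype.card_pi, fun j => Fintype.card_congr (e j), Fintype.card_prod,
        ZMod.card, Finset.prod_mul_distrib, Finset.prod_const, Finset.card_univ]
    rw [this]
    simp only [Finset.sum_const, Finset.card_univ, nsmul_eq_mul]
    push_cast
    ring
  · ext o i
    simp only [kI, piT, h, Matrix.submatrix_apply, blocks, TensB]
    rw [prod_ite_eq_pi]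
    split_ifs <;> rfl

theorem cost_pi_word {ι B : Type} [Fintype ι] [Fintype B] {X : ι → Type} [∀ j, Fintype (X j)]
    {K : ℕ} {M : ∀ j, Matrix (X j) (X j) ℂ} (h : ∀ j, Word K (M j)) {τ : ℝ}
    (hτ : Cost V (TensB ι B) (τ * (2 ^ Fintype.card ι * Fintype.card B))) :
    Cost V (kI (piT M) B) ((K * (τ + 1) + 1) * (Fintype.card (∀ j, X j) * Fintype.card B)) := by
  induction K generalizing M with
  | zero =>
    refine ((IsMono.piT h).kI B).cost.mono (le_of_eq ?_)
    simp
  | succ K ih =>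
    choose D L N h1 h2 h3 h4 using h
    refine (((((IsMono.piT h1).kI B).cost (V := V)).mul (cost_pi_layer h2 hτ)).mul
      (ih h3) |>.mono (le_of_eq ?_)).of_eq ?_
    · rw [Fintype.card_prod]
      push_cast
      ring
    · rw [kI_mul, kI_mul, piT_mul, piT_mul]
      exact congrArg (fun M => kI (piT M) B) (funext h4)

theorem Word.cost {K : ℕ} {M : Matrix I I ℂ} (h : Word K M) :
    Cost V M ((5 * K + 1) * Fintype.card I) := by
  induction K generalizing M with
  | zero => simpa using IsMono.cost h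
  | succ K ih =>
    obtain ⟨D, L, N, h1, ⟨P, _, e, rfl⟩, h3, rfl⟩ := h
    have h4 := (Cost.blocks (V := V) (P := P) (M := fun _ => Cm) fun _ => Cost.trivial Cm).submatrix
      e e e.injective
    refine (h1.cost.mul h4).mul (ih h3) |>.mono (le_of_eq ?_)
    rw [Fintype.card_congr e]
    simp
    ring

end Vale.Agent.P344
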