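import Mathlib
import Vale.Agent.P344.Word

/-! Bluestein's identity, and an in-place word of logarithmic length for six copies of a
Fourier matrix of arbitrary length. -/

namespace Vale.Agent.P344

open scoped Classical
open Matrix

noncomputable def chirp (n : ℕ) (a : ℤ) : ℂ := Complex.exp (Real.pi * Complex.I * a ^ 2 / n)

theorem chirp_ne_zero (n : ℕ) (a : ℤ) : chirp n a ≠ 0 := Complex.exp_ne_zero _

theorem chirp_id (n j k : ℕ) : Complex.exp (2 * Real.pi * Complex.I / n) ^ (j * k) =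
    chirp n j * (chirp n (j - k))⁻¹ * chirp n k := by
  simp only [chirp]
  rw [← Complex.exp_neg, ← Complex.exp_add, ← Complex.exp_add, ← Complex.exp_nat_mul]
  congr 1
  push_cast
  ring

theorem IsFT.toeplitz {G : Type} [AddCommGroup G] [Fintype G] {Φ : Matrix G G ℂ} (h : IsFT Φ)
    (n : ℕ) (φ : ℤ →+ G) (hφ : ∀ a : ℤ, |a| < 2 * n → φ a = 0 → a = 0) (t : ℤ → ℂ) :
    ∃ μ : G → ℂ, (∀ ξ, μ ξ ≠ 0) ∧
      ∀ j k : Fin n, op Φ μ (φ (j : ℕ)) (φ (k : ℕ)) = t ((j : ℕ) - (k : ℕ)) := by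
  let κ : G → ℂ := fun g => if hg : ∃ a : ℤ, |a| < n ∧ φ a = g then t hg.choose else 0
  have hκ : ∀ a : ℤ, |a| < n → κ (φ a) = t a := by
    intro a ha
    have hg : ∃ b : ℤ, |b| < n ∧ φ b = φ a := ⟨a, ha, rfl⟩
    simp only [κ, dif_pos hg]
    congr 1
    have h1 := hg.choose_spec
    have h2 := hφ (hg.choose - a) (by
      have := abs_lt.mp h1.1; have := abs_lt.mp ha; rw [abs_lt]; omega) (by
      rw [map_sub, h1.2, sub_self])
    omega
  obtain ⟨s, hs⟩ := Infinite.exists_notMem_finset (Finset.univ.image fun ξ : G =>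
    -(∑ z, κ z * Φ ξ z) / Φ ξ (φ n))
  refine ⟨fun ξ => ∑ z, (κ z + if z = φ n then s else 0) * Φ ξ z, fun ξ hξ => hs ?_,
    fun j k => ?_⟩
  · simp only [add_mul, Finset.sum_add_distrib, ite_mul, zero_mul, Finset.sum_ite_eq',
      Finset.mem_univ, if_true] at hξ
    refine Finset.mem_image.mpr ⟨ξ, Finset.mem_univ _, ?_⟩
    rw [div_eq_iff (h.ne_zero _ _)]
    linear_combination -hξ
  · have hj := j.2
    have hk := k.2
    rw [h.op_conv, ← map_sub, hκ _ (by rw [abs_lt]; omega), if_neg, add_zero]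
    intro hh
    have := hφ (((j : ℕ) : ℤ) - (k : ℕ) - n) (by rw [abs_lt]; omega) (by
      rw [map_sub, hh, sub_self])
    omega

section
variable {X Z Z' : Type} [Fintype X] [Fintype Z] [Fintype Z'] [DecidableEq X] [DecidableEq Z]
  [DecidableEq Z']

theorem word_shear_base (hZ : Even (Fintype.card (Z ⊕ Z'))) :
    Word 4 (fromBlocks (1 : Matrix (X ⊕ Z) (X ⊕ Z) ℂ) 0
      (fromBlocks ((5 / 3 : ℂ) • (1 : Matrix X X ℂ)) 0 0 0) (1 : Matrix (X ⊕ Z') (X ⊕ Z') ℂ)) := by
  let e : (X ⊕ Z) ⊕ (X ⊕ Z') ≃ (X × ZMod 2) ⊕ (Z ⊕ Z') :=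
    { toFun := Sum.elim (Sum.elim (fun x => .inl (x, 0)) (fun z => .inr (.inl z)))
        (Sum.elim (fun x => .inl (x, 1)) (fun z => .inr (.inr z)))
      invFun := Sum.elim (fun p => if p.2 = 0 then .inl (.inl p.1) else .inr (.inl p.1))
        (Sum.elim (fun z => .inl (.inr z)) (fun z => .inr (.inr z)))
      left_inv := by rintro ((x | z) | (x | z)) <;> simp
      right_inv := by
        rintro (⟨x, b⟩ | z | z)
        · rcases zmod2_cases b with rfl | rfl <;> simp
        · simp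
        · simp }
  refine (((Word.blocks (P := X) fun _ => word_Sh2).fromBlocks
    (word_one_of_even hZ 2)).reindex e).of_eq rfl ?_
  ext ((x | z) | (x | z)) ((y | w) | (y | w)) <;>
    simp [e, blocks, Sh2, Matrix.one_apply]

theorem word_shear_core {K : ℕ} (G G' : Matrix (X ⊕ Z) (X ⊕ Z) ℂ) (hG : Word (2 * K) G)
    (hG' : Word (2 * K) G') (hGG : G' * G = 1) (hZ : Even (Fintype.card (Z ⊕ Z')))
    (hX : Even (Fintype.card (X ⊕ Z'))) :
    Word (8 * K + 8) (fromBlocks (fromBlocks (1 : Matrix X X ℂ) 0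
      ((10 / 3 : ℂ) • G.toBlocks₁₁) (1 : Matrix X X ℂ)) 0 0 (1 : Matrix (Z ⊕ Z') (Z ⊕ Z') ℂ)) := by
  set P0 : Matrix (X ⊕ Z') (X ⊕ Z) ℂ := fromBlocks ((5 / 3 : ℂ) • (1 : Matrix X X ℂ)) 0 0 0
    with hP0
  have h1 : Word (2 * K + 4 + 2 * K) (fromBlocks (1 : Matrix (X ⊕ Z) (X ⊕ Z) ℂ) 0 (P0 * G)
      (1 : Matrix (X ⊕ Z') (X ⊕ Z') ℂ)) := by
    refine (((hG'.fromBlocks (word_one_of_even hX K)).mul (word_shear_base hZ)).mul
      (hG.fromBlocks (word_one_of_even hX K))).of_eq rfl ?_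
    simp [Matrix.fromBlocks_multiply, hGG, hP0]
  set σ : Matrix (X ⊕ Z) (X ⊕ Z) ℂ := fromBlocks 1 0 0 (-1) with hσ
  have hσm : IsMono σ := isMono_one.fromBlocks ⟨id, fun _ => -1, fun o i => by
    simp only [Matrix.neg_apply, Matrix.one_apply, id, eq_comm]; split_ifs <;> simp⟩
  have hσσ : σ * σ = 1 := by simp [hσ, Matrix.fromBlocks_multiply]
  have h2 : Word (2 * K + 4 + 2 * K) (fromBlocks (1 : Matrix (X ⊕ Z) (X ⊕ Z) ℂ) 0 (P0 * G * σ)
      (1 : Matrix (X ⊕ Z') (X ⊕ Z') ℂ)) := by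
    refine ((Word.mono_mul (hσm.fromBlocks isMono_one) h1).mul_mono
      (hσm.fromBlocks isMono_one)).of_eq rfl ?_
    simp [Matrix.fromBlocks_multiply, hσσ]
  have h3 : P0 * G + P0 * G * σ = fromBlocks ((10 / 3 : ℂ) • G.toBlocks₁₁) 0 0 0 := by
    conv_lhs => rw [← Matrix.fromBlocks_toBlocks G]
    simp only [hP0, hσ, Matrix.fromBlocks_multiply, Matrix.fromBlocks_add]
    simp only [Matrix.smul_mul, Matrix.one_mul, Matrix.zero_mul, add_zero, Matrix.mul_one,
      Matrix.mul_zero, zero_add, Matrix.mul_neg, add_neg_cancel, ← add_smul]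
    norm_num
  have h4 := h1.mul h2
  simp only [Matrix.fromBlocks_multiply, Matrix.mul_one, Matrix.one_mul, Matrix.mul_zero,
    Matrix.zero_mul, add_zero, zero_add, h3] at h4
  refine (h4.reindex (Equiv.sumSumSumComm X X Z Z')).of_eq (by ring) ?_
  ext ((x | x) | (z | z)) ((y | y) | (w | w)) <;> simp [Matrix.one_apply]

variable {R : Type} [Fintype R] [DecidableEq R]

def Shear (R : Type) [DecidableEq R] (A : Matrix X X ℂ) :
    Matrix ((X ⊕ X) ⊕ R) ((X ⊕ X) ⊕ R) ℂ :=
  fromBlocks (fromBlocks 1 0 A 1) 0 0 1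

theorem word_shear_conj {K : ℕ} {A : Matrix X X ℂ} (h : Word K (Shear R A))
    (D D' E E' : Matrix X X ℂ) (hD : IsMono D) (hD' : IsMono D') (hE : IsMono E) (hE' : IsMono E')
    (h1 : D * D' = 1) (h2 : E' * E = 1) : Word K (Shear R (D * A * E)) := by
  refine ((Word.mono_mul ((hE'.fromBlocks hD).fromBlocks isMono_one) h).mul_mono
    ((hE.fromBlocks hD').fromBlocks isMono_one)).of_eq rfl ?_
  simp [Shear, Matrix.fromBlocks_multiply, h1, h2]

theorem word_pair {K : ℕ} {F F' Q Q' : Matrix X X ℂ} (h : Word K (Shear R F)) (hQ : IsMono Q)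
    (hQ' : IsMono Q') (h1 : Q' * Q = 1) (h2 : F' * F = 1) (h3 : Q' * F = -F') :
    Word (K + K + K) (fromBlocks (fromBlocks F 0 0 F) 0 0 (1 : Matrix R R ℂ)) := by
  have h1' : Q * Q' = 1 := mul_eq_one_comm.mp h1
  have h2' : F * F' = 1 := mul_eq_one_comm.mp h2
  have h4 := word_shear_conj h Q' Q 1 1 hQ' hQ isMono_one isMono_one h1 (by simp)
  rw [Matrix.mul_one, h3] at h4
  have h5 : Word K (fromBlocks (fromBlocks (1 : Matrix X X ℂ) (-F') 0 (1 : Matrix X X ℂ)) 0 0
      (1 : Matrix R R ℂ)) := by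
    refine (h4.reindex ((Equiv.sumComm X X).sumCongr (Equiv.refl R))).of_eq rfl ?_
    ext ((x | x) | z) ((y | y) | w) <;> simp [Shear]
  have h6 : IsMono (fromBlocks (0 : Matrix X X ℂ) (1 : Matrix X X ℂ) Q (0 : Matrix X X ℂ)) := by
    obtain ⟨f, c, hQ⟩ := hQ
    refine ⟨Sum.elim Sum.inr (fun x => Sum.inl (f x)), Sum.elim (fun _ => 1) c, ?_⟩
    rintro (o | o) (i | i) <;> simp [hQ, Matrix.one_apply, eq_comm]
  have h7 : Q * F' = -F := by
    rw [← neg_neg F', ← h3, Matrix.mul_neg, ← Matrix.mul_assoc, h1', Matrix.one_mul]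
  refine (Word.mono_mul (h6.fromBlocks isMono_one) ((h.mul h5).mul h)).of_eq rfl ?_
  simp [Shear, Matrix.fromBlocks_multiply, h2, h2', h7]

theorem word_three {P : Type} [Fintype P] [DecidableEq P] {K : ℕ} {F : Matrix P P ℂ}
    (h : ∀ (R : Type) [Fintype R] [DecidableEq R], Fintype.card R = 2 * Fintype.card P →
      Word K (fromBlocks F 0 0 (1 : Matrix R R ℂ))) :
    Word (K + K + K) (blocks fun _ : Fin 3 => F) := by
  have key : ∀ s : Fin 3, Word K (blocks fun t : Fin 3 => if t = s then F else 1) := by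
    intro s
    let e : Fin 3 × P ≃ P ⊕ ({t : Fin 3 // t ≠ s} × P) :=
      { toFun := fun o => if h : o.1 = s then .inl o.2 else .inr (⟨o.1, h⟩, o.2)
        invFun := Sum.elim (fun p => (s, p)) (fun q => (q.1.1, q.2))
        left_inv := fun o => by
          by_cases h : o.1 = s
          · simp [h, Prod.ext_iff]
          · simp [h]
        right_inv := by
          rintro (p | ⟨⟨t, ht⟩, p⟩)
          · simp
          · simp [ht] }
    refine ((h ({t : Fin 3 // t ≠ s} × P) (by simp)).reindex e).of_eq rfl ?_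
    ext ⟨t, p⟩ ⟨t', p'⟩
    by_cases h1 : t = s <;> by_cases h2 : t' = s
    · simp [e, blocks, h1, h2]
    · simp [e, blocks, h1, h2, Ne.symm h2]
    · simp [e, blocks, h1, h2]
    · simp only [e, blocks, h1, h2, Matrix.submatrix_apply, Equiv.coe_fn_mk, dif_neg,
        not_false_eq_true, Matrix.fromBlocks_apply₂₂, if_false, Matrix.one_apply, Prod.mk.injEq,
        Subtype.mk.injEq]
      split_ifs <;> simp_all
  refine (((key 0).mul (key 1)).mul (key 2)).of_eq rfl ?_
  rw [blocks_mul, blocks_mul]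
  congr 1
  funext t
  fin_cases t <;> simp

end

theorem word_shear_zFT (r a : ℕ) [NeZero r] (h1 : 2 * r ≤ 2 ^ (a + 1)) (h2 : 2 ^ (a + 1) ≤ 5 * r)
    (R : Type) [Fintype R] [DecidableEq R] (hR : Fintype.card R = 4 * r) :
    Word (16 * (a + 1) + 8) (Shear R (zFT r)) := by
  obtain ⟨μ, hμ, hT⟩ := (isFT_zFT (2 ^ (a + 1))).toeplitz r (Int.castAddHom _) (by
    intro b hb hb0
    have := (ZMod.intCast_zmod_eq_zero_iff_dvd b _).mp hb0
    refine Int.eq_zero_of_abs_lt_dvd this ?_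
    have : (2 * r : ℤ) ≤ ((2 ^ (a + 1) : ℕ) : ℤ) := by exact_mod_cast h1
    omega) (fun b => (chirp r b)⁻¹)
  let φ : ZMod r → ZMod (2 ^ (a + 1)) := fun x => (x.val : ZMod (2 ^ (a + 1)))
  have hφ : Function.Injective φ := by
    intro x y hxy
    have hx := ZMod.val_lt x
    have hy := ZMod.val_lt y
    have := congrArg ZMod.val hxy
    simp only [φ, ZMod.val_natCast] at this
    rw [Nat.mod_eq_of_lt (by omega), Nat.mod_eq_of_lt (by omega)] at this
    exact ZMod.val_injective _ this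
  let Z := {u : ZMod (2 ^ (a + 1)) // u ∉ Set.range φ}
  let e : ZMod r ⊕ Z ≃ ZMod (2 ^ (a + 1)) :=
    ((Equiv.ofInjective φ hφ).sumCongr (Equiv.refl Z)).trans (Equiv.Set.sumCompl (Set.range φ))
  have he : ∀ x, e (.inl x) = φ x := fun x => rfl
  have hZ : r + Fintype.card Z = 2 ^ (a + 1) := by
    have := Fintype.card_congr e
    simpa using this
  have hev : 2 ^ (a + 1) = 2 * 2 ^ a := by ring
  have e' : R ≃ Z ⊕ Fin (5 * r - 2 ^ (a + 1)) := Fintype.equivOfCardEq (by simp; omega)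
  have hw := word_zFT (a + 1)
  have h3 := word_shear_core (K := 2 * (a + 1)) (Z' := Fin (5 * r - 2 ^ (a + 1)))
    ((op (zFT _) μ).submatrix e e) ((op (zFT _) μ⁻¹).submatrix e e)
    (((word_op hw μ).reindex e).of_eq (by ring) rfl)
    (((word_op hw μ⁻¹).reindex e).of_eq (by ring) rfl)
    (by
      rw [Matrix.submatrix_mul_equiv, (isFT_zFT _).op_mul]
      have : μ⁻¹ * μ = 1 := funext fun ξ => inv_mul_cancel₀ (hμ ξ)
      rw [this, (isFT_zFT _).op_one, Matrix.submatrix_one_equiv])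
    ⟨2 * r, by simp; omega⟩ ⟨3 * r - 2 ^ a, by simp; omega⟩
  have h4 : Word (16 * (a + 1) + 8) (Shear R ((10 / 3 : ℂ) •
      ((op (zFT _) μ).submatrix e e).toBlocks₁₁)) := by
    refine (h3.reindex ((Equiv.refl _).sumCongr e')).of_eq (by ring) ?_
    ext (x | z) (y | w) <;> simp [Shear, Matrix.one_apply]
  have h5 := word_shear_conj h4 (Matrix.diagonal fun x : ZMod r => 3 / 10 * chirp r x.val)
    (Matrix.diagonal fun x : ZMod r => (3 / 10 * chirp r x.val)⁻¹)
    (Matrix.diagonal fun x : ZMod r => chirp r x.val)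
    (Matrix.diagonal fun x : ZMod r => (chirp r x.val)⁻¹) (isMono_diagonal _) (isMono_diagonal _)
    (isMono_diagonal _) (isMono_diagonal _)
    (by
      rw [Matrix.diagonal_mul_diagonal, ← Matrix.diagonal_one]
      exact congrArg _ (funext fun x => mul_inv_cancel₀ (mul_ne_zero (by norm_num)
        (chirp_ne_zero _ _))))
    (by
      rw [Matrix.diagonal_mul_diagonal, ← Matrix.diagonal_one]
      exact congrArg _ (funext fun x => inv_mul_cancel₀ (chirp_ne_zero _ _)))
  refine h5.of_eq rfl (congrArg _ ?_)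
  ext x y
  have := hT (zval r x) (zval r y)
  simp only [Int.coe_castAddHom, Int.cast_natCast] at this
  rw [Matrix.mul_diagonal, Matrix.diagonal_mul, Matrix.smul_apply, zFT_eq]
  simp only [Matrix.toBlocks₁₁, Matrix.of_apply, Matrix.submatrix_apply, he, dft, smul_eq_mul]
  rw [chirp_id]
  change op _ μ (φ x) (φ y) = _ at this
  rw [this]
  change chirp r x.val * (chirp r (x.val - y.val))⁻¹ * chirp r y.val =
    3 / 10 * chirp r x.val * (10 / 3 * (chirp r (x.val - y.val))⁻¹) * chirp r y.val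
  ring

theorem word_six (r b : ℕ) [NeZero r] (hb : r ≤ 2 ^ b) :
    Word (2 * (72 * (b + 1) + 36)) (kI (zFT r) (Fin 3 × Bool)) := by
  have hr : 0 < r := Nat.pos_of_ne_zero (NeZero.ne r)
  set a := Nat.clog 2 r with ha
  have h1 : r ≤ 2 ^ a := Nat.le_pow_clog one_lt_two r
  have h2 : a ≤ b := (Nat.clog_le_iff_le_pow one_lt_two).mpr hb
  have h3 : 2 ^ a ≤ 2 * r := by
    rcases Nat.eq_zero_or_pos a with h0 | h0
    · rw [h0]; omega
    · have h4 : 1 < r := by
        by_contra hh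
        have : r = 1 := by omega
        rw [this] at ha
        simp at ha
        omega
      have := Nat.pow_pred_clog_lt_self one_lt_two h4
      obtain ⟨c, hc⟩ : ∃ c, a = c + 1 := ⟨a - 1, by omega⟩
      rw [← ha, hc] at this
      rw [hc, pow_succ]
      simp at this
      omega
  have hc : (r : ℂ) ≠ 0 := by exact_mod_cast hr.ne'
  have h4 := word_three (F := fromBlocks (zFT r) 0 0 (zFT r)) (fun R _ _ hR =>
    word_pair (word_shear_zFT r a (by rw [pow_succ]; omega) (by rw [pow_succ]; omega) R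
      (by simp at hR; omega))
      (F' := (r : ℂ)⁻¹ • (zFT r).submatrix Neg.neg id)
      (Q := Matrix.of fun x y => if y = -x then -(r : ℂ) else 0)
      (Q' := Matrix.of fun x y => if y = -x then -(r : ℂ)⁻¹ else 0)
      ⟨Neg.neg, fun _ => -(r : ℂ), fun _ _ => by simp⟩
      ⟨Neg.neg, fun _ => -(r : ℂ)⁻¹, fun _ _ => by simp⟩
      (by
        ext x y
        simp only [Matrix.mul_apply, Matrix.of_apply, ite_mul, zero_mul, Finset.sum_ite_eq',
          Finset.mem_univ, if_true, Matrix.one_apply]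
        simp [hc, eq_comm])
      (by
        apply mul_eq_one_comm.mp
        rw [Matrix.mul_smul, (isFT_zFT r).mul_inv, smul_smul]
        simp [hc])
      (by
        ext x y
        simp [Matrix.mul_apply]))
  let e : ZMod r × (Fin 3 × Bool) ≃ Fin 3 × (ZMod r ⊕ ZMod r) :=
    { toFun := fun o => (o.2.1, if o.2.2 then .inl o.1 else .inr o.1)
      invFun := fun o => Sum.elim (fun x => (x, o.1, true)) (fun x => (x, o.1, false)) o.2
      left_inv := by rintro ⟨x, t, _ | _⟩ <;> simp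
      right_inv := by rintro ⟨t, x | x⟩ <;> simp }
  have h5 := (h4.reindex e).pad ⟨r * 3, by simp; ring⟩ (72 * (b - a))
  refine h5.of_eq (by omega) ?_
  ext ⟨x, t, _ | _⟩ ⟨y, t', _ | _⟩ <;> simp [e, kI, blocks]

end Vale.Agent.P344
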