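import Mathlib
import Vale.Agent.P344.Word

/-! Frames: Fourier multipliers by fourth roots of unity on arrays indexed by binary matrices. -/

namespace Vale.Agent.P344

open scoped Classical
open Matrix

def lift (a : ZMod 2) : ZMod 4 := if a = 0 then 0 else 1
def two (a : ZMod 2) : ZMod 4 := if a = 0 then 0 else 2
noncomputable def ipow (a : ZMod 4) : ℂ := Complex.I ^ a.val
noncomputable def sgn (a : ZMod 2) : ℂ := if a = 0 then 1 else -1

theorem lift_add (a b : ZMod 2) : lift (a + b) = lift a + lift b + two (a * b) := by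
  revert a b; decide

theorem two_add (a b : ZMod 2) : two (a + b) = two a + two b := by revert a b; decide
theorem two_sub (a b : ZMod 2) : two (a - b) = two a - two b := by revert a b; decide
theorem two_zero : two 0 = 0 := rfl

theorem exists_two (c : ZMod 4) (h : c + c = 0) : ∃ a, c = two a := by revert c; decide

theorem ipow_add (a b : ZMod 4) : ipow (a + b) = ipow a * ipow b := by
  simp only [ipow, ZMod.val_add, ← pow_add]
  exact (Complex.I_pow_eq_pow_mod _).symm

theorem ipow_zero : ipow 0 = 1 := by simp [ipow]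

theorem ipow_two (a : ZMod 2) : ipow (two a) = sgn a := by
  have : (2 : ZMod 4).val = 2 := rfl
  rcases zmod2_cases a with rfl | rfl <;> simp [ipow, two, sgn, this]

theorem ipow_lift (a : ZMod 2) :
    ipow (lift a) = (1 + Complex.I) / 2 + (1 - Complex.I) / 2 * sgn a := by
  have : (1 : ZMod 4).val = 1 := rfl
  rcases zmod2_cases a with rfl | rfl <;> simp [ipow, lift, sgn, this] <;> ring

theorem sgn_add (a b : ZMod 2) : sgn (a + b) = sgn a * sgn b := by
  rw [← ipow_two, two_add, ipow_add, ipow_two, ipow_two]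

theorem sgn_sum {ι : Type} (s : Finset ι) (f : ι → ZMod 2) : sgn (∑ i ∈ s, f i) = ∏ i ∈ s, sgn (f i) := by
  induction s using Finset.induction_on with
  | empty => simp [sgn]
  | insert a s ha ih => rw [Finset.sum_insert ha, Finset.prod_insert ha, sgn_add, ih]

theorem ipow_sum {ι : Type} (s : Finset ι) (f : ι → ZMod 4) :
    ipow (∑ i ∈ s, f i) = ∏ i ∈ s, ipow (f i) := by
  induction s using Finset.induction_on with
  | empty => simp [ipow_zero]
  | insert a s ha ih => rw [Finset.sum_insert ha, Finset.prod_insert ha, ipow_add, ih]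

variable {M : Type} [Fintype M] [DecidableEq M]

noncomputable def WH (M : Type) [Fintype M] : Matrix (M → ZMod 2) (M → ZMod 2) ℂ :=
  fun ξ x => sgn (ξ ⬝ᵥ x)

theorem isFT_WH : IsFT (WH M) where
  zero := fun ξ => by simp [WH, sgn]
  add := fun ξ x y => by simp [WH, sgn_add]
  symm := fun ξ x => by simp [WH, dotProduct_comm]
  orth := fun x => by
    have h1 := Finset.prod_univ_sum (fun _ : M => (Finset.univ : Finset (ZMod 2)))
      (fun j a => sgn (a * x j))
    rw [Fintype.piFinset_univ] at h1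
    simp only [WH, dotProduct, sgn_sum]
    rw [← h1]
    have h2 : ∀ j, ∑ a : ZMod 2, sgn (a * x j) = if x j = (0 : M → ZMod 2) j then 2 else 0 := by
      intro j
      rw [sum_zmod2]
      rcases zmod2_cases (x j) with h | h <;> simp [h, sgn]
      norm_num
    simp only [h2]
    have := prod_ite_eq_pi x 0 (fun _ => (2 : ℂ))
    convert this using 2
    all_goals simp

def Refines (q : (M → ZMod 2) → ZMod 4) (B : Matrix M M (ZMod 2)) : Prop :=
  ∀ ξ η, q (ξ + η) = q ξ + q η + two (ξ ⬝ᵥ B *ᵥ η)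

omit [DecidableEq M] in
theorem Refines.add {q q' : (M → ZMod 2) → ZMod 4} {B B' : Matrix M M (ZMod 2)} (h : Refines q B)
    (h' : Refines q' B') : Refines (q + q') (B + B') := by
  intro ξ η
  simp only [Pi.add_apply, h ξ η, h' ξ η, Matrix.add_mulVec, dotProduct_add, two_add]
  ring

omit [DecidableEq M] in
theorem Refines.sub {q q' : (M → ZMod 2) → ZMod 4} {B B' : Matrix M M (ZMod 2)} (h : Refines q B)
    (h' : Refines q' B') : Refines (q - q') (B - B') := by
  intro ξ η
  simp only [Pi.sub_apply, h ξ η, h' ξ η, Matrix.sub_mulVec, dotProduct_sub, two_sub]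
  ring

omit [DecidableEq M] in
theorem refines_sum {J : Type} (s : Finset J) (f : J → M → ZMod 2) :
    Refines (∑ j ∈ s, fun ξ => lift (f j ⬝ᵥ ξ)) (∑ j ∈ s, vecMulVec (f j) (f j)) := by
  induction s using Finset.induction_on with
  | empty => intro ξ η; simp [two_zero]
  | insert a s ha ih =>
    rw [Finset.sum_insert ha, Finset.sum_insert ha]
    refine Refines.add ?_ ih
    intro ξ η
    beta_reduce
    rw [dotProduct_add, lift_add]
    congr 2
    simp only [dotProduct, Matrix.mulVec, vecMulVec_apply, Finset.mul_sum, Finset.sum_mul]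
    rw [Finset.sum_comm]
    exact Finset.sum_congr rfl fun _ _ => Finset.sum_congr rfl fun _ _ => by ring

theorem Refines.zero_eq {q : (M → ZMod 2) → ZMod 4} (h : Refines q 0) :
    ∃ w : M → ZMod 2, q = fun ξ => two (w ⬝ᵥ ξ) := by
  have h1 : ∀ ξ η, q (ξ + η) = q ξ + q η := fun ξ η => by simpa [two_zero] using h ξ η
  have h0 : q 0 = 0 := by simpa using h1 0 0
  have h2 : ∀ i, ∃ a, q (Pi.single i 1) = two a := fun i => exists_two _ (by
    rw [← h1, ← h0]
    congr 1
    ext j
    exact CharTwo.add_self_eq_zero _)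
  choose w hw using h2
  refine ⟨w, funext fun ξ => ?_⟩
  induction ξ using Pi.single_induction with
  | zero => simp [h0, two_zero]
  | add f g hf hg => rw [h1, hf, hg, dotProduct_add, two_add]
  | single i a =>
    rcases zmod2_cases a with rfl | rfl
    · simp [h0, two_zero]
    · simp [hw]

def Dec (r : ℕ) (B : Matrix M M (ZMod 2)) : Prop :=
  ∃ (J : Type) (_ : Fintype J) (f : J → M → ZMod 2),
    Fintype.card J ≤ r ∧ B = ∑ j, vecMulVec (f j) (f j)

omit [Fintype M] [DecidableEq M] in
theorem Dec.add {r r' : ℕ} {B B' : Matrix M M (ZMod 2)} (h : Dec r B) (h' : Dec r' B') :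
    Dec (r + r') (B + B') := by
  obtain ⟨J, _, f, h1, rfl⟩ := h
  obtain ⟨J', _, f', h1', rfl⟩ := h'
  exact ⟨J ⊕ J', inferInstance, Sum.elim f f', by simp; omega, by simp⟩

omit [Fintype M] [DecidableEq M] in
theorem Dec.of_eq {r r' : ℕ} {B B' : Matrix M M (ZMod 2)} (h : Dec r B) (hr : r ≤ r')
    (e : B' = B) : Dec r' B' := by
  obtain ⟨J, _, f, h1, rfl⟩ := h
  exact ⟨J, inferInstance, f, h1.trans hr, e⟩

omit [Fintype M] [DecidableEq M] in
theorem dec_zero (r : ℕ) : Dec r (0 : Matrix M M (ZMod 2)) :=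
  ⟨Empty, inferInstance, Empty.elim, by simp, by simp⟩

omit [Fintype M] [DecidableEq M] in
theorem dec_vec (v : M → ZMod 2) : Dec 1 (vecMulVec v v) :=
  ⟨Unit, inferInstance, fun _ => v, by simp, by simp⟩

theorem one_eq_sum : (1 : Matrix M M (ZMod 2)) =
    ∑ i : M, vecMulVec (Pi.single i 1) (Pi.single i 1) := by
  ext a b
  simp only [Matrix.sum_apply, vecMulVec_apply, Pi.single_apply, Matrix.one_apply]
  simp

theorem dec_one : Dec (Fintype.card M) (1 : Matrix M M (ZMod 2)) :=
  ⟨M, inferInstance, _, le_rfl, one_eq_sum⟩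

omit [Fintype M] [DecidableEq M] in
theorem neg_self (B : Matrix M M (ZMod 2)) : -B = B := by
  ext a b; exact ZMod.neg_eq_self_mod_two _

def Good (B : Matrix M M (ZMod 2)) : Prop := ∃ q, Refines q B

noncomputable def qOf (B : Matrix M M (ZMod 2)) : (M → ZMod 2) → ZMod 4 :=
  Classical.epsilon fun q => Refines q B

omit [DecidableEq M] in
theorem Good.spec {B : Matrix M M (ZMod 2)} (h : Good B) : Refines (qOf B) B :=
  Classical.epsilon_spec h

omit [DecidableEq M] in
theorem Dec.good {r : ℕ} {B : Matrix M M (ZMod 2)} (h : Dec r B) : Good B := by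
  obtain ⟨J, _, f, -, rfl⟩ := h
  exact ⟨_, refines_sum _ f⟩

def qstd (M : Type) [Fintype M] : (M → ZMod 2) → ZMod 4 := fun ξ => ∑ i, lift (ξ i)

theorem refines_qstd : Refines (qstd M) (1 : Matrix M M (ZMod 2)) := by
  rw [one_eq_sum]
  convert refines_sum Finset.univ (fun i : M => (Pi.single i 1 : M → ZMod 2))
  ext ξ
  simp [qstd]

theorem op_qstd : op (WH M) (fun ξ => ipow (qstd M ξ)) = piT fun _ : M => Cm := by
  ext x y
  have h := (isFT_WH (M := M)).op_conv (fun z => ∏ i, Cm 0 (z i)) x y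
  have h2 : (fun ξ => ∑ z : M → ZMod 2, (∏ i, Cm 0 (z i)) * WH M ξ z) =
      fun ξ => ipow (qstd M ξ) := by
    funext ξ
    have h1 := Finset.prod_univ_sum (fun _ : M => (Finset.univ : Finset (ZMod 2)))
      (fun j a => Cm 0 a * sgn (ξ j * a))
    rw [Fintype.piFinset_univ] at h1
    simp only [WH, dotProduct, sgn_sum, ← Finset.prod_mul_distrib, qstd, ipow_sum]
    rw [← h1]
    refine Finset.prod_congr rfl fun j _ => ?_
    rw [sum_zmod2, ipow_lift]
    simp [Cm, sgn]
  rw [h2] at h
  rw [h]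
  refine Finset.prod_congr rfl fun j _ => ?_
  simp only [Cm, Pi.sub_apply, eq_comm (a := (0 : ZMod 2)), sub_eq_zero]

theorem isLayer_dir (v : M → ZMod 2) (hv : v ≠ 0) :
    IsLayer (op (WH M) (fun ξ => ipow (lift (v ⬝ᵥ ξ)))) := by
  obtain ⟨i0, hi⟩ := Function.ne_iff.mp hv
  have hi1 : v i0 = 1 := (zmod2_cases _).resolve_left hi
  have h11 : (1 + 1 : ZMod 2) = 0 := rfl
  have hvv : ∀ (a : ZMod 2) (x : M → ZMod 2), x + a • v + a • v = x := fun a x => by
    ext j; simp [add_assoc, CharTwo.add_self_eq_zero]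
  let e : (M → ZMod 2) ≃ {x : M → ZMod 2 // x i0 = 0} × ZMod 2 :=
    { toFun := fun x => (⟨x + x i0 • v, by simp [hi1, CharTwo.add_self_eq_zero]⟩, x i0)
      invFun := fun p => p.1.1 + p.2 • v
      left_inv := fun x => hvv _ _
      right_inv := by
        rintro ⟨⟨x, hx⟩, a⟩
        simp [hx, hi1, hvv] }
  refine ⟨_, inferInstance, e, ?_⟩
  ext x y
  have h := (isFT_WH (M := M)).op_conv (fun z => (if z = 0 then (1 + Complex.I) / 2 else 0) +
    if z = v then (1 - Complex.I) / 2 else 0) x y
  simp only [add_mul, Finset.sum_add_distrib, ite_mul, zero_mul, Finset.sum_ite_eq',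
    Finset.mem_univ, if_true, (isFT_WH (M := M)).zero, mul_one] at h
  simp only [ipow_lift, dotProduct_comm v]
  refine h.trans ?_
  simp only [blocks, Matrix.submatrix_apply, e, Equiv.coe_fn_mk, Subtype.mk.injEq, Cm, zero_add,
    sub_eq_iff_eq_add]
  by_cases h1 : x = y
  · subst h1
    simp [hv]
  · by_cases h2 : x = v + y
    · subst h2
      have h3 : ¬ (1 + y i0 = y i0) := by simp
      have h4 : v + y + (1 + y i0) • v = y + y i0 • v := by
        ext j; simp [add_mul]; ring_nf; simp [CharTwo.two_eq_zero]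
      simp [hv, hi1, h4]
    · rw [if_neg h1, if_neg h2, if_neg, add_zero]
      intro h3
      have h4 : x = y + (y i0 + x i0) • v := by
        rw [add_smul, ← add_assoc, ← h3, hvv]
      rcases zmod2_cases (y i0 + x i0) with h5 | h5
      · exact h1 (by simpa [h5] using h4)
      · exact h2 (by simpa [h5, add_comm] using h4)

variable {V : Type} [AddCommGroup V] [Module ℂ V]
variable (κ Bt : Type) [Fintype κ] [Fintype Bt]

/-- index set of one array (times the batch) -/
abbrev Yt (M κ Bt : Type) := (κ → M → ZMod 2) × Bt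

noncomputable def Γ (q : (M → ZMod 2) → ZMod 4) : Matrix (Yt M κ Bt) (Yt M κ Bt) ℂ :=
  kI (piT fun _ : κ => op (WH M) fun ξ => ipow (q ξ)) Bt

variable {κ Bt}

theorem Γ_add (q q' : (M → ZMod 2) → ZMod 4) : Γ κ Bt (q + q') = Γ κ Bt q * Γ κ Bt q' := by
  simp only [Γ, kI_mul, piT_mul, isFT_WH.op_mul]
  congr 3
  funext _ 
  congr 1
  funext ξ
  exact ipow_add _ _

omit [Fintype Bt] in
theorem Γ_two (w : M → ZMod 2) : Γ κ Bt (fun ξ => two (w ⬝ᵥ ξ)) =
    Matrix.of fun o i => if i = (fun c => o.1 c - w, o.2) then (1 : ℂ) else 0 := by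
  ext o i
  have h : ∀ x y, op (WH M) (fun ξ => ipow (two (w ⬝ᵥ ξ))) x y = if y = x - w then 1 else 0 := by
    intro x y
    have h := (isFT_WH (M := M)).op_conv (fun z => if z = w then 1 else 0) x y
    simp only [ite_mul, one_mul, zero_mul, Finset.sum_ite_eq', Finset.mem_univ, if_true] at h
    simp only [ipow_two, dotProduct_comm w]
    refine h.trans ?_
    congr 1
    rw [eq_sub_iff_add_eq, sub_eq_iff_eq_add, add_comm]
    exact propext eq_comm
  simp only [Γ, kI, piT, h, Matrix.of_apply, Prod.ext_iff]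
  have := prod_ite_eq_pi (I := fun _ : κ => M → ZMod 2) i.1 (fun c => o.1 c - w) (fun _ => 1)
  simp only [Finset.prod_const_one] at this
  rw [show (∏ j, if i.1 j = o.1 j - w then (1 : ℂ) else 0) = _ by convert this]
  split_ifs <;> simp_all

theorem app_Γ_zero (z : Yt M κ Bt → V) : app (Γ κ Bt (0 : (M → ZMod 2) → ZMod 4)) z = z := by
  have := Γ_two (κ := κ) (Bt := Bt) (0 : M → ZMod 2)
  simp only [zero_dotProduct, two_zero, sub_zero] at this
  funext o
  change app (Γ κ Bt fun _ => 0) z o = _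
  rw [this]
  simp [app]

theorem cost_Γ_two (w : M → ZMod 2) : Cost V (Γ κ Bt (fun ξ => two (w ⬝ᵥ ξ))) 0 := by
  rw [Γ_two]; exact Cost.select _

theorem cost_Γ {τ : ℝ} (hτ0 : 0 ≤ τ)
    (hτ : Cost V (TensB κ Bt) (τ * (2 ^ Fintype.card κ * Fintype.card Bt)))
    {q : (M → ZMod 2) → ZMod 4} {B : Matrix M M (ZMod 2)} {r : ℕ} (hq : Refines q B)
    (hB : Dec r B) : Cost V (Γ κ Bt q) (r * (τ * Fintype.card (Yt M κ Bt))) := by
  obtain ⟨J, _, f, h1, rfl⟩ := hB
  have h2 := hq.sub (refines_sum Finset.univ f)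
  rw [sub_self] at h2
  obtain ⟨w, hw⟩ := h2.zero_eq
  have h3 : ∀ s : Finset J, Cost V (Γ κ Bt ((∑ j ∈ s, fun ξ => lift (f j ⬝ᵥ ξ)) +
      fun ξ => two (w ⬝ᵥ ξ))) (s.card * (τ * Fintype.card (Yt M κ Bt))) := by
    intro s
    induction s using Finset.induction_on with
    | empty => simpa using cost_Γ_two w
    | insert a s ha ih =>
      rw [Finset.sum_insert ha, add_assoc, Γ_add, Finset.card_insert_of_notMem ha]
      have h4 : Cost V (Γ κ Bt fun ξ => lift (f a ⬝ᵥ ξ)) (τ * Fintype.card (Yt M κ Bt)) := by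
        by_cases hv : f a = 0
        · have := cost_Γ_two (V := V) (κ := κ) (Bt := Bt) (0 : M → ZMod 2)
          simp only [hv, zero_dotProduct] at this ⊢
          exact this.mono (by positivity)
        · have := cost_pi_layer (V := V) (fun _ : κ => isLayer_dir (f a) hv) hτ
          rw [Fintype.card_prod, Nat.cast_mul]
          convert this
          rfl
      refine (h4.mul ih).mono (le_of_eq ?_)
      push_cast
      ring
  have h5 := h3 Finset.univ
  rw [← hw, add_sub_cancel] at h5
  refine h5.mono (mul_le_mul_of_nonneg_right ?_ (by positivity))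
  exact_mod_cast h1

end Vale.Agent.P344
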