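import Mathlib
import Vale.Agent.P344.Frame

/-! One invocation of the finite network. -/

namespace Vale.Agent.P344

open scoped Classical
open Matrix

variable {V : Type} [AddCommGroup V] [Module ℂ V]
variable {M : Type} [Fintype M] [DecidableEq M]
variable {κ Bt : Type} [Fintype κ] [Fintype Bt]

variable (V κ Bt) in
def Fast (τ : ℝ) : Prop :=
  0 ≤ τ ∧ Cost V (TensB κ Bt) (τ * (2 ^ Fintype.card κ * Fintype.card Bt))

/-- the formal array `z` is known in the frame with label `B` -/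
def KW (A : Set V) (B : Matrix M M (ZMod 2)) (z : Yt M κ Bt → V) : Prop :=
  Good B ∧ Known A (app (Γ κ Bt (qOf B)) z)

theorem KW.mono {A A' : Set V} {B : Matrix M M (ZMod 2)} {z : Yt M κ Bt → V} (h : KW A B z)
    (hA : A ⊆ A') : KW A' B z := ⟨h.1, h.2.mono hA⟩

theorem KW.relabel {τ : ℝ} (hτ : Fast V κ Bt τ) {A : Set V} (h0 : (0 : V) ∈ A)
    {B B' : Matrix M M (ZMod 2)} {z : Yt M κ Bt → V} (h : KW A B z) {r : ℕ}
    (hd : Dec r (B' - B)) :
    Can A (r * (τ * Fintype.card (Yt M κ Bt))) (fun A' => KW A' B' z) := by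
  have hg : Good B' := ⟨_, by simpa using h.1.spec.add hd.good.spec⟩
  refine (cost_Γ hτ.1 hτ.2 (hg.spec.sub h.1.spec) hd _ A h0 h.2).mono le_rfl
    fun A' _ hA => ⟨hg, ?_⟩
  rwa [← app_mul, ← Γ_add, sub_add_cancel] at hA

theorem relabelAll {τ : ℝ} (hτ : Fast V κ Bt τ) {A : Set V} (h0 : (0 : V) ∈ A) {W : Type}
    [Fintype W] {l l' : W → Matrix M M (ZMod 2)} {σ : W → Yt M κ Bt → V}
    (h : ∀ w, KW A (l w) (σ w)) (r : W → ℕ) (hd : ∀ w, Dec (r w) (l' w - l w)) :
    Can A ((∑ w, r w : ℕ) * (τ * Fintype.card (Yt M κ Bt)))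
      (fun A' => ∀ w, KW A' (l' w) (σ w)) := by
  have := Can.all (A := A) (fun w => (r w : ℝ) * (τ * Fintype.card (Yt M κ Bt)))
    (fun w A' => KW A' (l' w) (σ w)) (fun _ _ _ hB h => h.mono hB)
    (fun w A' hA => ((h w).mono hA).relabel hτ (hA h0) (hd w))
  rwa [← Finset.sum_mul, ← Nat.cast_sum] at this

def Compat {W L : Type} (G : Matrix W W ℂ) (l : W → L) : Prop :=
  ∀ w w', G w w' ≠ 0 → l w = l w'

theorem gateAll {A : Set V} (h0 : (0 : V) ∈ A) {W : Type} [Fintype W]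
    {l : W → Matrix M M (ZMod 2)} {σ : W → Yt M κ Bt → V} (h : ∀ w, KW A (l w) (σ w))
    {G : Matrix W W ℂ} (hc : Compat G l) :
    Can A (2 * Fintype.card W ^ 2 * Fintype.card (Yt M κ Bt))
      (fun A' => ∀ w, KW A' (l w) (app G σ w)) := by
  have h1 := Can.all (A := A) (fun _ : W × Yt M κ Bt => (2 * Fintype.card W : ℝ))
    (fun p A' => app (Γ κ Bt (qOf (l p.1))) (app G σ p.1) p.2 ∈ A') (fun _ _ _ hB h => hB h)
    (fun p A' hA => by
      refine (Can.lincomb (hA h0) (Finset.univ.filter fun w' => G p.1 w' ≠ 0) (G p.1)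
        (fun w' => app (Γ κ Bt (qOf (l w'))) (σ w') p.2)
        (fun w' _ => hA ((h w').2 p.2))).mono ?_ fun A'' _ hP => ?_
      · have : (Finset.univ.filter fun w' => G p.1 w' ≠ 0).card ≤ Fintype.card W :=
          Finset.card_le_univ _
        have : ((Finset.univ.filter fun w' => G p.1 w' ≠ 0).card : ℝ) ≤ Fintype.card W := by
          exact_mod_cast this
        linarith
      · convert hP using 1
        change app _ (∑ w', G p.1 w' • σ w') p.2 = _
        rw [app_sum, Finset.sum_apply, Finset.sum_filter]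
        refine Finset.sum_congr rfl fun w' _ => ?_
        by_cases hw : G p.1 w' = 0
        · simp [hw]
        · simp [hw, hc _ _ hw])
  refine h1.mono (le_of_eq ?_) fun A' _ hP w => ⟨(h w).1, fun y => hP (w, y)⟩
  simp only [Finset.sum_const, Finset.card_univ, nsmul_eq_mul, Fintype.card_prod W]
  push_cast
  ring

theorem KW.start {A : Set V} {B : Matrix M M (ZMod 2)} (hB : Good B) {z : Yt M κ Bt → V}
    (h : Known A z) : KW A B (app (Γ κ Bt (-qOf B)) z) := by
  refine ⟨hB, ?_⟩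
  rwa [← app_mul, ← Γ_add, add_neg_cancel, app_Γ_zero]

theorem KW.finish {A : Set V} {B B' : Matrix M M (ZMod 2)} (hB : Good B) {z : Yt M κ Bt → V}
    (h : KW A B' (app (Γ κ Bt (-qOf B)) z)) (e : B' - B = 1) :
    Known A (app (Γ κ Bt (qstd M)) z) := by
  have h1 := refines_qstd.sub (h.1.spec.sub hB.spec)
  rw [e, sub_self] at h1
  obtain ⟨w, hw⟩ := h1.zero_eq
  have h2 : qstd M = (fun ξ => two (w ⬝ᵥ ξ)) + (qOf B' + -qOf B) := by rw [← hw]; abel
  rw [h2, Γ_add, Γ_add, app_mul, app_mul, Γ_two]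
  intro o
  simpa [app] using h.2 (fun c => o.1 c - w, o.2)

theorem Compat.one {W L : Type} [DecidableEq W] (l : W → L) : Compat (1 : Matrix W W ℂ) l := by
  intro w w' h
  by_contra hne
  exact h (Matrix.one_apply_ne fun e => hne (e ▸ rfl))

theorem Compat.add {W L : Type} {G G' : Matrix W W ℂ} {l : W → L} (h : Compat G l)
    (h' : Compat G' l) : Compat (G + G') l := by
  intro w w' hne
  by_contra hl
  have h1 : G w w' = 0 := by by_contra hh; exact hl (h _ _ hh)
  have h2 : G' w w' = 0 := by by_contra hh; exact hl (h' _ _ hh)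
  exact hne (by simp [h1, h2])

theorem Compat.sub {W L : Type} {G G' : Matrix W W ℂ} {l : W → L} (h : Compat G l)
    (h' : Compat G' l) : Compat (G - G') l := by
  rw [sub_eq_add_neg]
  exact h.add fun w w' hne => h' w w' (by simpa using hne)

theorem Compat.transpose {W L : Type} {G : Matrix W W ℂ} {l : W → L} (h : Compat G l) :
    Compat Gᵀ l := fun w w' hne => (h w' w hne).symm

structure Design (H A : Type) [Fintype H] [DecidableEq H] [DecidableEq A] (k : ℕ) where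
  t : A → H → ZMod 2
  n : A → A → ℂ
  ρ : A → H → ℂ
  γ : A → H → ℂ
  card : Fintype.card H = k + 2
  ident : ∀ S T, n S T + ∑ j, ρ T j * γ S j = if S = T then 1 else 0
  d1 : ∀ S, Dec (k + 1) (1 - vecMulVec (t S) (t S))
  d2 : ∀ S T, n S T ≠ 0 → Dec k (1 - vecMulVec (t T) (t T) - vecMulVec (t S) (t S))

variable {H A : Type} [Fintype H] [DecidableEq H] [Fintype A] [DecidableEq A] {k : ℕ}

abbrev Wi (H A : Type) := (A ⊕ A) ⊕ ((A × A) ⊕ H)

namespace Design

variable (d : Design H A k)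

def π (S : A) : Matrix H H (ZMod 2) := vecMulVec (d.t S) (d.t S)

/-- labels of the four kinds of wires -/
def lab (x y : A → Matrix H H (ZMod 2)) (s : A × A → Matrix H H (ZMod 2))
    (c : Matrix H H (ZMod 2)) : Wi H A → Matrix H H (ZMod 2) :=
  Sum.elim (Sum.elim x y) (Sum.elim s fun _ => c)

def l1 : Wi H A → Matrix H H (ZMod 2) := lab d.π (fun _ => 0) (fun _ => 0) 0
def l2 : Wi H A → Matrix H H (ZMod 2) := lab d.π (fun _ => 0) (fun p => d.π p.1) 0
def l3 : Wi H A → Matrix H H (ZMod 2) := lab (fun _ => 1) (fun _ => 0) (fun p => d.π p.1) 1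
def l4 : Wi H A → Matrix H H (ZMod 2) := lab (fun _ => 1) (fun _ => 0) (fun p => d.π p.1) 0
noncomputable def l5 : Wi H A → Matrix H H (ZMod 2) := lab (fun _ => 1) (fun T => 1 - d.π T)
  (fun p => if d.n p.1 p.2 = 0 then d.π p.1 else 1 - d.π p.2) 0
def l6 : Wi H A → Matrix H H (ZMod 2) := lab (fun _ => 1) (fun T => 1 - d.π T) (fun _ => 1) 1

omit [Fintype A] in
include d in
theorem dec1 : Dec (k + 2) (1 : Matrix H H (ZMod 2)) := d.card ▸ dec_one

theorem schedule {τ : ℝ} (hτ : Fast V κ Bt τ) (B : Matrix M M (ZMod 2))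
    (ι : Matrix H H (ZMod 2) →+ Matrix M M (ZMod 2)) (hι : ∀ r X, Dec r X → Dec r (ι X))
    {g1 g2 g3 g4 g5 g6 : Matrix (Wi H A) (Wi H A) ℂ} (c1 : Compat g1 d.l1) (c2 : Compat g2 d.l2)
    (c3 : Compat g3 d.l3) (c4 : Compat g4 d.l4) (c5 : Compat g5 d.l5) (c6 : Compat g6 d.l6)
    {S : Set V} (h0 : (0 : V) ∈ S) {σ : Wi H A → Yt M κ Bt → V}
    (h : ∀ w, KW S (B + ι (d.l1 w)) (σ w)) :
    Can S ((2 * Fintype.card A * (k + 1) + Fintype.card A ^ 2 * (k + 2) + 3 * (k + 2) ^ 2 : ℕ) *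
        (τ * Fintype.card (Yt M κ Bt)) +
        12 * Fintype.card (Wi H A) ^ 2 * Fintype.card (Yt M κ Bt))
      (fun S' => ∀ w, KW S' (B + ι (d.l6 w)) (app (g6 * g5 * g4 * g3 * g2 * g1) σ w)) := by
  have cc : ∀ {g : Matrix (Wi H A) (Wi H A) ℂ} {l : Wi H A → Matrix H H (ZMod 2)}, Compat g l →
      Compat g (fun w => B + ι (l w)) := fun hc w w' hne => by simp only [hc w w' hne]
  have dd : ∀ {r : ℕ} {X X' : Matrix H H (ZMod 2)}, Dec r (X' - X) →
      Dec r (B + ι X' - (B + ι X)) := fun hd => (hι _ _ hd).of_eq le_rfl (by simp)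
  have e12 : ∀ w, Dec (Sum.elim (fun _ => 0) (Sum.elim (fun _ => 1) fun _ => 0) w)
      (d.l2 w - d.l1 w) := by
    rintro ((x | y) | (s | c))
    · exact (dec_zero 0).of_eq le_rfl (by simp [l1, l2, lab])
    · exact (dec_zero 0).of_eq le_rfl (by simp [l1, l2, lab])
    · exact (dec_vec _).of_eq le_rfl (by simp [l1, l2, lab]; rfl)
    · exact (dec_zero 0).of_eq le_rfl (by simp [l1, l2, lab])
  have e23 : ∀ w, Dec (Sum.elim (Sum.elim (fun _ => k + 1) fun _ => 0)
      (Sum.elim (fun _ => 0) fun _ => k + 2) w) (d.l3 w - d.l2 w) := by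
    rintro ((x | y) | (s | c))
    · exact d.d1 x
    · exact (dec_zero 0).of_eq le_rfl (by simp [l3, l2, lab])
    · exact (dec_zero 0).of_eq le_rfl (by simp [l3, l2, lab])
    · exact d.dec1.of_eq le_rfl (by simp [l3, l2, lab])
  have e34 : ∀ w, Dec (Sum.elim (fun _ => 0) (Sum.elim (fun _ => 0) fun _ => k + 2) w)
      (d.l4 w - d.l3 w) := by
    rintro ((x | y) | (s | c))
    · exact (dec_zero 0).of_eq le_rfl (by simp [l3, l4, lab])
    · exact (dec_zero 0).of_eq le_rfl (by simp [l3, l4, lab])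
    · exact (dec_zero 0).of_eq le_rfl (by simp [l3, l4, lab])
    · exact d.dec1.of_eq le_rfl (by simp [l3, l4, lab, neg_self])
  have e45 : ∀ w, Dec (Sum.elim (Sum.elim (fun _ => 0) fun _ => k + 1)
      (Sum.elim (fun p : A × A => if d.n p.1 p.2 = 0 then 0 else k) fun _ => 0) w)
      (d.l5 w - d.l4 w) := by
    rintro ((x | y) | (s | c))
    · exact (dec_zero 0).of_eq le_rfl (by simp [l5, l4, lab])
    · exact (d.d1 y).of_eq le_rfl (by simp [l5, l4, lab]; rfl)
    · by_cases hn : d.n s.1 s.2 = 0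
      · exact (dec_zero 0).of_eq (by simp) (by simp [l5, l4, lab, hn])
      · exact (d.d2 _ _ hn).of_eq (by simp [hn]) (by simp [l5, l4, lab, hn]; rfl)
    · exact (dec_zero 0).of_eq le_rfl (by simp [l5, l4, lab])
  have e56 : ∀ w, Dec (Sum.elim (fun _ => 0)
      (Sum.elim (fun p : A × A => if d.n p.1 p.2 = 0 then k + 1 else 1) fun _ => k + 2) w)
      (d.l6 w - d.l5 w) := by
    rintro ((x | y) | (s | c))
    · exact (dec_zero 0).of_eq le_rfl (by simp [l5, l6, lab])
    · exact (dec_zero 0).of_eq le_rfl (by simp [l5, l6, lab])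
    · by_cases hn : d.n s.1 s.2 = 0
      · exact (d.d1 s.1).of_eq (by simp [hn]) (by simp [l5, l6, lab, hn]; rfl)
      · exact (dec_vec _).of_eq (by simp [hn]) (by simp [l5, l6, lab, hn]; rfl)
    · exact d.dec1.of_eq le_rfl (by simp [l5, l6, lab])
  have key := (gateAll h0 h (cc c1)).bind fun S1 s1 h1 =>
    (relabelAll hτ (s1 h0) h1 _ fun w => dd (e12 w)).bind fun S2 s2 h2 =>
    (gateAll (s2 (s1 h0)) h2 (cc c2)).bind fun S3 s3 h3 =>
    (relabelAll hτ (s3 (s2 (s1 h0))) h3 _ fun w => dd (e23 w)).bind fun S4 s4 h4 =>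
    (gateAll (s4 (s3 (s2 (s1 h0)))) h4 (cc c3)).bind fun S5 s5 h5 =>
    (relabelAll hτ (s5 (s4 (s3 (s2 (s1 h0))))) h5 _ fun w => dd (e34 w)).bind fun S6 s6 h6 =>
    (gateAll (s6 (s5 (s4 (s3 (s2 (s1 h0)))))) h6 (cc c4)).bind fun S7 s7 h7 =>
    (relabelAll hτ (s7 (s6 (s5 (s4 (s3 (s2 (s1 h0))))))) h7 _ fun w => dd (e45 w)).bind
      fun S8 s8 h8 =>
    (gateAll (s8 (s7 (s6 (s5 (s4 (s3 (s2 (s1 h0)))))))) h8 (cc c5)).bind fun S9 s9 h9 =>
    (relabelAll hτ (s9 (s8 (s7 (s6 (s5 (s4 (s3 (s2 (s1 h0))))))))) h9 _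
      fun w => dd (e56 w)).bind fun S10 s10 h10 =>
    gateAll (s10 (s9 (s8 (s7 (s6 (s5 (s4 (s3 (s2 (s1 h0)))))))))) h10 (cc c6)
  refine key.mono (le_of_eq ?_) fun S' _ hP w => by simpa only [app_mul] using hP w
  have hs : ∑ p : A × A, (if d.n p.1 p.2 = 0 then 0 else k) +
      ∑ p : A × A, (if d.n p.1 p.2 = 0 then k + 1 else 1) = Fintype.card A ^ 2 * (k + 1) := by
    rw [← Finset.sum_add_distrib, Finset.sum_congr rfl (g := fun _ => k + 1)
      (fun p _ => by split_ifs <;> simp)]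
    simp [sq]
  have hs' := congrArg (Nat.cast (R := ℝ)) hs
  simp only [Fintype.sum_sum_type, Sum.elim_inl, Sum.elim_inr, Finset.sum_const, Finset.card_univ,
    smul_eq_mul, mul_zero, d.card, Fintype.card_prod A A, zero_add, add_zero]
  generalize ∑ p : A × A, (if d.n p.1 p.2 = 0 then 0 else k) = s1 at *
  generalize ∑ p : A × A, (if d.n p.1 p.2 = 0 then k + 1 else 1) = s2 at *
  push_cast at hs' ⊢
  linear_combination (τ * Fintype.card (Yt M κ Bt)) * hs'

def gJ : Matrix (Wi H A) (Wi H A) ℂ := fun w w' => match w, w' with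
  | .inl (.inr T), .inr (.inl p) => if p.2 = T then d.n p.1 p.2 else 0
  | _, _ => 0

def gR : Matrix (Wi H A) (Wi H A) ℂ := fun w w' => match w, w' with
  | .inl (.inr T), .inr (.inr j) => d.ρ T j
  | _, _ => 0

def gV (_ : Design H A k) : Matrix (Wi H A) (Wi H A) ℂ := fun w w' => match w, w' with
  | .inr (.inl p), .inl (.inl S) => if S = p.1 then 1 else 0
  | _, _ => 0

def gG : Matrix (Wi H A) (Wi H A) ℂ := fun w w' => match w, w' with
  | .inr (.inr j), .inl (.inl S) => d.γ S j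
  | _, _ => 0

def gE (_ : Design H A k) : Matrix (Wi H A) (Wi H A) ℂ := fun w w' => match w, w' with
  | .inl (.inr T), .inl (.inl S) => if S = T then 1 else 0
  | _, _ => 0

def ty : Wi H A → Fin 4 := Sum.elim (Sum.elim (fun _ => 0) fun _ => 1) (Sum.elim (fun _ => 2) fun _ => 3)

def Supp (N : Matrix (Wi H A) (Wi H A) ℂ) (a b : Fin 4) : Prop :=
  ∀ w w', N w w' ≠ 0 → ty w = a ∧ ty w' = b

omit [DecidableEq H] [DecidableEq A] in
theorem Supp.mul {N N' : Matrix (Wi H A) (Wi H A) ℂ} {a b c e : Fin 4} (h : Supp N a b)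
    (h' : Supp N' c e) (hbc : b ≠ c) : N * N' = 0 := by
  ext w w'
  rw [Matrix.mul_apply]
  refine Finset.sum_eq_zero fun x _ => ?_
  by_contra hne
  exact hbc ((h _ _ (left_ne_zero_of_mul hne)).2.symm.trans (h' _ _ (right_ne_zero_of_mul hne)).1)

omit [Fintype A] in
theorem sJ : Supp d.gJ 1 2 := by
  rintro ((x | y) | (s | c)) ((x' | y') | (s' | c')) h <;> simp_all [gJ, ty]
omit [Fintype A] in
theorem sR : Supp d.gR 1 3 := by
  rintro ((x | y) | (s | c)) ((x' | y') | (s' | c')) h <;> simp_all [gR, ty]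
omit [Fintype A] in
theorem sV : Supp d.gV 2 0 := by
  rintro ((x | y) | (s | c)) ((x' | y') | (s' | c')) h <;> simp_all [gV, ty]
omit [Fintype A] in
theorem sG : Supp d.gG 3 0 := by
  rintro ((x | y) | (s | c)) ((x' | y') | (s' | c')) h <;> simp_all [gG, ty]

theorem JV_RG : d.gJ * d.gV + d.gR * d.gG = d.gE := by
  ext ((x | y) | (s | c)) ((x' | y') | (s' | c')) <;>
    simp [Matrix.mul_apply, Fintype.sum_sum_type, gJ, gV, gR, gG, gE, Fintype.sum_prod_type]
  exact d.ident x' y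

theorem ring_fwd {R : Type} [Ring R] (a b c e : R) (aa : a * a = 0) (ab : a * b = 0)
    (ba : b * a = 0) (bb : b * b = 0) (ae : a * e = 0) (bc : b * c = 0) (ca : c * a = 0)
    (cb : c * b = 0) (ea : e * a = 0) (eb : e * b = 0) (cc : c * c = 0) (ce : c * e = 0)
    (ec : e * c = 0) (ee : e * e = 0) :
    (1 - c - e) * (1 + a) * (1 + b) * (1 + e) * (1 + c) * (1 - a - b) = 1 + (a * c + b * e) := by
  have h1 : (1 + c) * (1 - a - b) = 1 - a - b + c := by
    simp only [add_mul, mul_sub, one_mul, mul_one, ca, cb]; abel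
  have h2 : (1 + e) * (1 - a - b + c) = 1 - a - b + c + e := by
    simp only [add_mul, mul_add, mul_sub, one_mul, mul_one, ea, eb, ec]; abel
  have h3 : (1 + b) * (1 - a - b + c + e) = 1 - a + c + e + b * e := by
    simp only [add_mul, mul_add, mul_sub, one_mul, mul_one, ba, bb, bc]; abel
  have h4 : (1 + a) * (1 - a + c + e + b * e) = 1 + c + e + b * e + a * c := by
    simp only [add_mul, mul_add, mul_sub, one_mul, mul_one, ← mul_assoc, aa, ab, ae, zero_mul]; abel
  have h5 : (1 - c - e) * (1 + c + e + b * e + a * c) = 1 + (a * c + b * e) := by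
    simp only [sub_mul, mul_add, one_mul, mul_one, ← mul_assoc, cc, ce, ec, ee, ca, cb, ea, eb,
      zero_mul]; abel
  simp only [mul_assoc, h1, h2, h3, h4, h5]

theorem ring_rev {R : Type} [Ring R] (a b c e : R) (aa : a * a = 0) (_ab : a * b = 0)
    (ba : b * a = 0) (bb : b * b = 0) (ea : e * a = 0) (cb : c * b = 0) (ac : a * c = 0)
    (bc : b * c = 0) (ae : a * e = 0) (be : b * e = 0) (cc : c * c = 0) (ce : c * e = 0)
    (ec : e * c = 0) (ee : e * e = 0) :
    (1 + c + e) * (1 - a) * (1 - b) * (1 - e) * (1 - c) * (1 + a + b) = 1 - (c * a + e * b) := by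
  have h1 : (1 - c) * (1 + a + b) = 1 + a + b - c - c * a := by
    simp only [sub_mul, mul_add, one_mul, mul_one, cb]; abel
  have h2 : (1 - e) * (1 + a + b - c - c * a) = 1 + a + b - c - c * a - e - e * b := by
    simp only [sub_mul, mul_add, mul_sub, one_mul, mul_one, ← mul_assoc, ea, ec, zero_mul]; abel
  have h3 : (1 - b) * (1 + a + b - c - c * a - e - e * b) = 1 + a - c - c * a - e - e * b := by
    simp only [sub_mul, mul_add, mul_sub, one_mul, mul_one, ← mul_assoc, ba, bb, bc, be, zero_mul]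
    abel
  have h4 : (1 - a) * (1 + a - c - c * a - e - e * b) = 1 - c - c * a - e - e * b := by
    simp only [sub_mul, mul_add, mul_sub, one_mul, mul_one, ← mul_assoc, aa, ac, ae, zero_mul]
    abel
  have h5 : (1 + c + e) * (1 - c - c * a - e - e * b) = 1 - (c * a + e * b) := by
    simp only [add_mul, mul_sub, one_mul, mul_one, ← mul_assoc, cc, ce, ec, ee, zero_mul]
    abel
  simp only [mul_assoc, h1, h2, h3, h4, h5]

theorem prod_fwd : (1 - d.gV - d.gG) * (1 + d.gJ) * (1 + d.gR) * (1 + d.gG) * (1 + d.gV) *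
    (1 - d.gJ - d.gR) = 1 + d.gE := by
  rw [← d.JV_RG]
  exact ring_fwd _ _ _ _ (d.sJ.mul d.sJ (by decide)) (d.sJ.mul d.sR (by decide))
    (d.sR.mul d.sJ (by decide)) (d.sR.mul d.sR (by decide)) (d.sJ.mul d.sG (by decide))
    (d.sR.mul d.sV (by decide)) (d.sV.mul d.sJ (by decide)) (d.sV.mul d.sR (by decide))
    (d.sG.mul d.sJ (by decide)) (d.sG.mul d.sR (by decide)) (d.sV.mul d.sV (by decide))
    (d.sV.mul d.sG (by decide)) (d.sG.mul d.sV (by decide)) (d.sG.mul d.sG (by decide))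

theorem prod_rev : (1 + d.gVᵀ + d.gGᵀ) * (1 - d.gJᵀ) * (1 - d.gRᵀ) * (1 - d.gGᵀ) * (1 - d.gVᵀ) *
    (1 + d.gJᵀ + d.gRᵀ) = 1 - d.gEᵀ := by
  have tr : ∀ {N N' : Matrix (Wi H A) (Wi H A) ℂ}, N * N' = 0 → N'ᵀ * Nᵀ = 0 := fun h => by
    rw [← Matrix.transpose_mul, h, Matrix.transpose_zero]
  rw [← d.JV_RG, Matrix.transpose_add, Matrix.transpose_mul, Matrix.transpose_mul]
  exact ring_rev _ _ _ _ (tr (d.sJ.mul d.sJ (by decide))) (tr (d.sR.mul d.sJ (by decide)))
    (tr (d.sJ.mul d.sR (by decide))) (tr (d.sR.mul d.sR (by decide)))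
    (tr (d.sJ.mul d.sG (by decide))) (tr (d.sR.mul d.sV (by decide)))
    (tr (d.sV.mul d.sJ (by decide))) (tr (d.sV.mul d.sR (by decide)))
    (tr (d.sG.mul d.sJ (by decide))) (tr (d.sG.mul d.sR (by decide)))
    (tr (d.sV.mul d.sV (by decide))) (tr (d.sG.mul d.sV (by decide)))
    (tr (d.sV.mul d.sG (by decide))) (tr (d.sG.mul d.sG (by decide)))

omit [Fintype A] in
theorem cJ1 : Compat d.gJ d.l1 := by
  rintro ((x | y) | (s | c)) ((x' | y') | (s' | c')) h <;> simp_all [gJ, l1, lab]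
omit [Fintype A] in
theorem cR1 : Compat d.gR d.l1 := by
  rintro ((x | y) | (s | c)) ((x' | y') | (s' | c')) h <;> simp_all [gR, l1, lab]
omit [Fintype A] in
theorem cV2 : Compat d.gV d.l2 := by
  rintro ((x | y) | (s | c)) ((x' | y') | (s' | c')) h <;> simp_all [gV, l2, lab]
omit [Fintype A] in
theorem cG3 : Compat d.gG d.l3 := by
  rintro ((x | y) | (s | c)) ((x' | y') | (s' | c')) h <;> simp_all [gG, l3, lab]
omit [Fintype A] in
theorem cR4 : Compat d.gR d.l4 := by
  rintro ((x | y) | (s | c)) ((x' | y') | (s' | c')) h <;> simp_all [gR, l4, lab]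
omit [Fintype A] in
theorem cJ5 : Compat d.gJ d.l5 := by
  rintro ((x | y) | (s | c)) ((x' | y') | (s' | c')) h <;> simp_all [gJ, l5, lab]
omit [Fintype A] in
theorem cV6 : Compat d.gV d.l6 := by
  rintro ((x | y) | (s | c)) ((x' | y') | (s' | c')) h <;> simp_all [gV, l6, lab]
omit [Fintype A] in
theorem cG6 : Compat d.gG d.l6 := by
  rintro ((x | y) | (s | c)) ((x' | y') | (s' | c')) h <;> simp_all [gG, l6, lab]

end Design

end Vale.Agent.P344
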