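import Mathlib
import Vale.Agent.P344.Network

/-! The three stages of the network, and the recursion for tensor powers. -/

namespace Vale.Agent.P344

open scoped Classical
open Matrix

variable {V : Type} [AddCommGroup V] [Module ℂ V]
variable {κ Bt : Type} [Fintype κ] [Fintype Bt]
variable {H A : Type} [Fintype H] [DecidableEq H] [Fintype A] [DecidableEq A] {k : ℕ}

theorem app_add {I O : Type} [Fintype I] (N N' : Matrix O I ℂ) (x : I → V) :
    app (N + N') x = app N x + app N' x := by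
  funext o; simp [app, add_smul, Finset.sum_add_distrib]

theorem app_sub {I O : Type} [Fintype I] (N N' : Matrix O I ℂ) (x : I → V) :
    app (N - N') x = app N x - app N' x := by
  funext o; simp [app, sub_smul, Finset.sum_sub_distrib]

namespace Design

variable (d : Design H A k)

section
variable {M : Type} [Fintype M] [DecidableEq M]

variable (V κ Bt) in
def InvSpec (c : ℝ) (B : Matrix M M (ZMod 2)) (ι : Matrix H H (ZMod 2) →+ Matrix M M (ZMod 2))
    (fx fy : (Yt M κ Bt → V) → (Yt M κ Bt → V) → (Yt M κ Bt → V)) : Prop :=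
  ∀ (S : Set V), (0 : V) ∈ S → ∀ (ξ η : A → Yt M κ Bt → V) (z : (A × A) ⊕ H → Yt M κ Bt → V),
    (∀ a, KW S (B + ι (d.π a)) (ξ a)) → (∀ a, KW S B (η a)) → (∀ a, Known S (z a)) →
    Can S c (fun S' => (∀ a, KW S' (B + ι 1) (fx (ξ a) (η a))) ∧
      (∀ a, KW S' (B + ι (1 - d.π a)) (fy (ξ a) (η a))) ∧
      ∀ a, Known S' (app (Γ κ Bt (qstd M)) (z a)))

theorem inv_gen {τ : ℝ} (hτ : Fast V κ Bt τ) (B : Matrix M M (ZMod 2))
    (ι : Matrix H H (ZMod 2) →+ Matrix M M (ZMod 2)) (hι : ∀ r X, Dec r X → Dec r (ι X))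
    {rB rE m : ℕ} (hB : Dec rB B) (hE : Dec rE (1 - (B + ι 1))) (hm : rB + (k + 2) + rE = m)
    {g1 g2 g3 g4 g5 g6 : Matrix (Wi H A) (Wi H A) ℂ} (c1 : Compat g1 d.l1) (c2 : Compat g2 d.l2)
    (c3 : Compat g3 d.l3) (c4 : Compat g4 d.l4) (c5 : Compat g5 d.l5) (c6 : Compat g6 d.l6)
    {fx fy : (Yt M κ Bt → V) → (Yt M κ Bt → V) → (Yt M κ Bt → V)}
    (hP : ∀ (σ : Wi H A → Yt M κ Bt → V), app (g6 * g5 * g4 * g3 * g2 * g1) σ =
      Sum.elim (Sum.elim (fun a => fx (σ (.inl (.inl a))) (σ (.inl (.inr a))))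
        (fun a => fy (σ (.inl (.inl a))) (σ (.inl (.inr a))))) (fun a => σ (.inr a))) :
    d.InvSpec V κ Bt ((2 * Fintype.card A * (k + 1) + Fintype.card A ^ 2 * m +
      (k + 2) * (m + 2 * (k + 2)) : ℕ) * (τ * Fintype.card (Yt M κ Bt)) +
      12 * Fintype.card (Wi H A) ^ 2 * Fintype.card (Yt M κ Bt)) B ι fx fy := by
  intro S h0 ξ η z hx hy hz
  have g0 : Good (0 : Matrix M M (ZMod 2)) := (dec_zero 0).good
  have key := (relabelAll hτ h0 (l' := fun _ => B) (fun a => KW.start g0 (hz a)) (fun _ => rB)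
      (fun _ => by simpa using hB)).bind fun S1 s1 h1 =>
    (d.schedule hτ B ι hι c1 c2 c3 c4 c5 c6 (s1 h0)
      (σ := Sum.elim (Sum.elim ξ η) fun a => app (Γ κ Bt (-qOf 0)) (z a)) (by
        rintro ((a | a) | (a | a))
        · exact (hx a).mono s1
        · simpa [l1, lab] using (hy a).mono s1
        · simpa [l1, lab] using h1 (.inl a)
        · simpa [l1, lab] using h1 (.inr a))).bind fun S2 s2 h2 =>
    (relabelAll hτ (s2 (s1 h0)) (l := fun _ => B + ι 1) (l' := fun _ => 1)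
      (σ := fun a => app (Γ κ Bt (-qOf 0)) (z a)) (by
        rw [hP] at h2
        rintro (a | a)
        · exact h2 (.inr (.inl a))
        · exact h2 (.inr (.inr a))) (fun _ => rE) (fun _ => hE)).mono le_rfl
      (P' := fun S' => (∀ a, KW S' (B + ι 1) (fx (ξ a) (η a))) ∧
        (∀ a, KW S' (B + ι (1 - d.π a)) (fy (ξ a) (η a))) ∧
        ∀ a, Known S' (app (Γ κ Bt (qstd M)) (z a))) fun S3 s3 h3 => by
      rw [hP] at h2
      exact ⟨fun a => (h2 (.inl (.inl a))).mono s3, fun a => (h2 (.inl (.inr a))).mono s3,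
        fun a => (h3 a).finish g0 (by simp)⟩
  refine key.mono (le_of_eq ?_) fun _ _ h => h
  subst hm
  simp only [Finset.sum_const, Finset.card_univ, smul_eq_mul, Fintype.card_sum,
    Fintype.card_prod A A, d.card]
  push_cast
  ring

theorem inv_fwd {τ : ℝ} (hτ : Fast V κ Bt τ) (B : Matrix M M (ZMod 2))
    (ι : Matrix H H (ZMod 2) →+ Matrix M M (ZMod 2)) (hι : ∀ r X, Dec r X → Dec r (ι X))
    {rB rE m : ℕ} (hB : Dec rB B) (hE : Dec rE (1 - (B + ι 1))) (hm : rB + (k + 2) + rE = m) :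
    d.InvSpec V κ Bt ((2 * Fintype.card A * (k + 1) + Fintype.card A ^ 2 * m +
      (k + 2) * (m + 2 * (k + 2)) : ℕ) * (τ * Fintype.card (Yt M κ Bt)) +
      12 * Fintype.card (Wi H A) ^ 2 * Fintype.card (Yt M κ Bt)) B ι
      (fun x _ => x) (fun x y => y + x) :=
  d.inv_gen hτ B ι hι hB hE hm (((Compat.one _).sub d.cJ1).sub d.cR1) ((Compat.one _).add d.cV2)
    ((Compat.one _).add d.cG3) ((Compat.one _).add d.cR4) ((Compat.one _).add d.cJ5)
    (((Compat.one _).sub d.cV6).sub d.cG6) (fun σ => by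
      rw [d.prod_fwd, app_add, app_one]
      funext w
      rcases w with ((a | a) | (a | a)) <;> simp [app, gE, Fintype.sum_sum_type])

theorem inv_rev {τ : ℝ} (hτ : Fast V κ Bt τ) (B : Matrix M M (ZMod 2))
    (ι : Matrix H H (ZMod 2) →+ Matrix M M (ZMod 2)) (hι : ∀ r X, Dec r X → Dec r (ι X))
    {rB rE m : ℕ} (hB : Dec rB B) (hE : Dec rE (1 - (B + ι 1))) (hm : rB + (k + 2) + rE = m) :
    d.InvSpec V κ Bt ((2 * Fintype.card A * (k + 1) + Fintype.card A ^ 2 * m +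
      (k + 2) * (m + 2 * (k + 2)) : ℕ) * (τ * Fintype.card (Yt M κ Bt)) +
      12 * Fintype.card (Wi H A) ^ 2 * Fintype.card (Yt M κ Bt)) B ι
      (fun x y => x - y) (fun _ y => y) :=
  d.inv_gen hτ B ι hι hB hE hm (((Compat.one _).add d.cJ1.transpose).add d.cR1.transpose)
    ((Compat.one _).sub d.cV2.transpose) ((Compat.one _).sub d.cG3.transpose)
    ((Compat.one _).sub d.cR4.transpose) ((Compat.one _).sub d.cJ5.transpose)
    (((Compat.one _).add d.cV6.transpose).add d.cG6.transpose) (fun σ => by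
      rw [d.prod_rev, app_sub, app_one]
      funext w
      rcases w with ((a | a) | (a | a)) <;> simp [app, gE, Fintype.sum_sum_type])

omit [Fintype A] in
theorem stage {I : Type} [Fintype I] {c : ℝ} {B : I → Matrix M M (ZMod 2)}
    {ι : I → Matrix H H (ZMod 2) →+ Matrix M M (ZMod 2)}
    {fx fy : (Yt M κ Bt → V) → (Yt M κ Bt → V) → (Yt M κ Bt → V)}
    (h : ∀ i, d.InvSpec V κ Bt c (B i) (ι i) fx fy) {S : Set V} (h0 : (0 : V) ∈ S)
    (ξ η : I → A → Yt M κ Bt → V) (z : I → (A × A) ⊕ H → Yt M κ Bt → V)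
    (hx : ∀ i a, KW S (B i + ι i (d.π a)) (ξ i a)) (hy : ∀ i a, KW S (B i) (η i a))
    (hz : ∀ i a, Known S (z i a)) :
    Can S (Fintype.card I * c) (fun S' => ∀ i, (∀ a, KW S' (B i + ι i 1) (fx (ξ i a) (η i a))) ∧
      (∀ a, KW S' (B i + ι i (1 - d.π a)) (fy (ξ i a) (η i a))) ∧
      ∀ a, Known S' (app (Γ κ Bt (qstd M)) (z i a))) := by
  have := Can.all (A := S) (fun _ : I => c) _
    (fun i S1 S2 hS hP => ⟨fun a => (hP.1 a).mono hS, fun a => (hP.2.1 a).mono hS,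
      fun a => (hP.2.2 a).mono hS⟩)
    (fun i S' hS => h i S' (hS h0) (ξ i) (η i) (z i) (fun a => (hx i a).mono hS)
      (fun a => (hy i a).mono hS) (fun a => (hz i a).mono hS))
  simpa using this

end

end Design

def k3 (X Y Z : Matrix H H (ZMod 2)) : Matrix (H × H × H) (H × H × H) (ZMod 2) :=
  fun a b => X a.1 b.1 * Y a.2.1 b.2.1 * Z a.2.2 b.2.2

omit [Fintype H] [DecidableEq H] in
theorem Dec.k3 {r s t : ℕ} {X Y Z : Matrix H H (ZMod 2)} (hX : Dec r X) (hY : Dec s Y)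
    (hZ : Dec t Z) : Dec (r * s * t) (k3 X Y Z) := by
  obtain ⟨J, _, f, h1, rfl⟩ := hX
  obtain ⟨J', _, f', h1', rfl⟩ := hY
  obtain ⟨J'', _, f'', h1'', rfl⟩ := hZ
  refine ⟨J × J' × J'', inferInstance,
    fun p a => f p.1 a.1 * f' p.2.1 a.2.1 * f'' p.2.2 a.2.2, ?_, ?_⟩
  · simp only [Fintype.card_prod, ← mul_assoc]
    exact Nat.mul_le_mul (Nat.mul_le_mul h1 h1') h1''
  · ext a b
    simp only [P344.k3, Matrix.sum_apply, vecMulVec_apply, Fintype.sum_prod_type]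
    rw [mul_assoc, Finset.sum_mul_sum, Finset.sum_mul]
    refine Finset.sum_congr rfl fun _ _ => ?_
    rw [Finset.mul_sum]
    refine Finset.sum_congr rfl fun _ _ => ?_
    rw [Finset.mul_sum]
    exact Finset.sum_congr rfl fun _ _ => by ring

omit [Fintype H] in
theorem k3_one : k3 (1 : Matrix H H (ZMod 2)) 1 1 = 1 := by
  ext a b
  simp only [k3, Matrix.one_apply, Prod.ext_iff]
  split_ifs <;> simp_all

def ι1 (Y Z : Matrix H H (ZMod 2)) :
    Matrix H H (ZMod 2) →+ Matrix (H × H × H) (H × H × H) (ZMod 2) :=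
  AddMonoidHom.mk' (fun X => k3 X Y Z) fun _ _ => by ext; simp [k3, add_mul]

def ι2 (X Z : Matrix H H (ZMod 2)) :
    Matrix H H (ZMod 2) →+ Matrix (H × H × H) (H × H × H) (ZMod 2) :=
  AddMonoidHom.mk' (fun Y => k3 X Y Z) fun _ _ => by ext; simp [k3, add_mul, mul_add]

def ι3 (X Y : Matrix H H (ZMod 2)) :
    Matrix H H (ZMod 2) →+ Matrix (H × H × H) (H × H × H) (ZMod 2) :=
  AddMonoidHom.mk' (fun Z => k3 X Y Z) fun _ _ => by ext; simp [k3, mul_add]

namespace Design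

variable (d : Design H A k)

/-- number of directional steps -/
def steps (v k : ℕ) : ℕ :=
  3 * (v ^ 2 * (2 * v * (k + 1) + v ^ 2 * (k + 2) ^ 3 + (k + 2) * ((k + 2) ^ 3 + 2 * (k + 2)))) +
    2 * (v ^ 3 * ((k + 1) * (k + 1))) +
    2 * (v ^ 3 * ((k + 1) * (k + 2) * (k + 1) + (k + 1) * (k + 1)))

include d in
theorem network {τ : ℝ} (hτ : Fast V κ Bt τ) {S : Set V} (h0 : (0 : V) ∈ S)
    (zX zY : A × A × A → Yt (H × H × H) κ Bt → V)
    (zA : Fin 3 → A × A → (A × A) ⊕ H → Yt (H × H × H) κ Bt → V)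
    (hX : ∀ u, Known S (zX u)) (hY : ∀ u, Known S (zY u)) (hA : ∀ j i a, Known S (zA j i a)) :
    Can S (steps (Fintype.card A) k * (τ * Fintype.card (Yt (H × H × H) κ Bt)) +
      (36 * Fintype.card A ^ 2 * Fintype.card (Wi H A) ^ 2 + 2 * (Fintype.card A ^ 3) ^ 2) *
        Fintype.card (Yt (H × H × H) κ Bt))
      (fun S' => (∀ u, Known S' (app (Γ κ Bt (qstd _)) (zX u))) ∧
        (∀ u, Known S' (app (Γ κ Bt (qstd _)) (zY u))) ∧
        ∀ j i a, Known S' (app (Γ κ Bt (qstd _)) (zA j i a))) := by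
  have p1 : ∀ a, Dec 1 (d.π a) := fun a => dec_vec _
  have p2 : ∀ a, Dec (k + 1) (1 - d.π a) := d.d1
  have p3 := d.dec1
  have g0 : Good (0 : Matrix (H × H × H) (H × H × H) (ZMod 2)) := (dec_zero 0).good
  have gu : ∀ a b c, Good (k3 (d.π a) (d.π b) (d.π c)) := fun a b c =>
    ((p1 a).k3 (p1 b) (p1 c)).good
  have i1 := fun i : A × A => d.inv_fwd hτ 0 (ι1 (d.π i.1) (d.π i.2))
    (fun r X hX => (hX.k3 (p1 _) (p1 _)).of_eq (by simp) rfl) (m := (k + 2) ^ 3) (dec_zero 0)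
    (((p3.k3 (p2 i.1) p3).add (p3.k3 (p1 i.1) (p2 i.2))).of_eq le_rfl (by
      rw [← k3_one]; ext; simp [k3, ι1]; ring)) (by ring)
  have i2 := fun i : A × A => d.inv_rev hτ (k3 (1 - d.π i.1) 1 (d.π i.2)) (ι2 (d.π i.1) (d.π i.2))
    (fun r X hX => ((p1 _).k3 hX (p1 _)).of_eq (by simp) rfl) (m := (k + 2) ^ 3)
    ((p2 i.1).k3 p3 (p1 i.2)) ((p3.k3 p3 (p2 i.2)).of_eq le_rfl (by
      rw [← k3_one]; ext; simp [k3, ι2]; ring)) (by ring)
  have i3 := fun i : A × A => d.inv_fwd hτ (k3 (1 - d.π i.1) 1 1 + k3 (d.π i.1) (1 - d.π i.2) 1)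
    (ι3 (d.π i.1) (d.π i.2))
    (fun r X hX => ((p1 _).k3 (p1 _) hX).of_eq (by simp) rfl) (m := (k + 2) ^ 3)
    (((p2 i.1).k3 p3 p3).add ((p1 i.1).k3 (p2 i.2) p3)) ((dec_zero 0).of_eq le_rfl (by
      rw [← k3_one]; ext; simp [k3, ι3]; ring)) (by ring)
  set ξ : A × A × A → Yt (H × H × H) κ Bt → V :=
    fun u => app (Γ κ Bt (-qOf (k3 (d.π u.1) (d.π u.2.1) (d.π u.2.2)))) (zX u) with hξ
  set η : A × A × A → Yt (H × H × H) κ Bt → V := fun u => app (Γ κ Bt (-qOf 0)) (zY u) with hη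
  have r12 : ∀ u : A × A × A, Dec ((k + 1) * (k + 1)) (k3 (1 - d.π u.1) (1 - d.π u.2.1) (d.π u.2.2)) :=
    fun u => ((p2 _).k3 (p2 _) (p1 _)).of_eq (by simp) rfl
  have r23 : ∀ u : A × A × A, Dec ((k + 1) * (k + 2) * (k + 1) + (k + 1) * (k + 1))
      (k3 (1 - d.π u.1) 1 (1 - d.π u.2.2) + k3 (d.π u.1) (1 - d.π u.2.1) (1 - d.π u.2.2)) :=
    fun u => (((p2 _).k3 p3 (p2 _)).add ((p1 _).k3 (p2 _) (p2 _))).of_eq (by simp) rfl
  have key := (d.stage i1 h0 (fun i a => ξ (a, i.1, i.2)) (fun i a => η (a, i.1, i.2)) (zA 0)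
      (fun i a => by simpa [ι1] using KW.start (gu a i.1 i.2) (hX (a, i.1, i.2)))
      (fun i a => KW.start g0 (hY _)) (hA 0)).bind fun S1 s1 h1 =>
    (relabelAll hτ (s1 h0) (σ := ξ) (fun u => (h1 (u.2.1, u.2.2)).1 u.1)
      (l' := fun u => k3 (1 - d.π u.1) 1 (d.π u.2.2) + ι2 (d.π u.1) (d.π u.2.2) (d.π u.2.1)) _
      (fun u => (r12 u).of_eq le_rfl (by ext; simp [k3, ι1, ι2]; ring))).bind fun S2 s2 h2 =>
    (relabelAll hτ (s2 (s1 h0)) (σ := fun u => η u + ξ u)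
      (fun u => ((h1 (u.2.1, u.2.2)).2.1 u.1).mono s2)
      (l' := fun u => k3 (1 - d.π u.1) 1 (d.π u.2.2)) _
      (fun u => (r12 u).of_eq le_rfl (by ext; simp [k3, ι1]; ring))).bind fun S3 s3 h3 =>
    (d.stage i2 (s3 (s2 (s1 h0))) (fun i a => ξ (i.1, a, i.2))
      (fun i a => η (i.1, a, i.2) + ξ (i.1, a, i.2)) (zA 1)
      (fun i a => (h2 (i.1, a, i.2)).mono s3) (fun i a => h3 (i.1, a, i.2))
      (fun i a => (hA 1 i a).mono (s1.trans (s2.trans s3)))).bind fun S4 s4 h4 =>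
    (relabelAll hτ (s4 (s3 (s2 (s1 h0)))) (σ := fun u => ξ u - (η u + ξ u))
      (fun u => (h4 (u.1, u.2.2)).1 u.2.1)
      (l' := fun u => k3 (1 - d.π u.1) 1 1 + k3 (d.π u.1) (1 - d.π u.2.1) 1 +
        ι3 (d.π u.1) (d.π u.2.1) (d.π u.2.2)) _
      (fun u => (r23 u).of_eq le_rfl (by ext; simp [k3, ι3, ι2]; ring))).bind fun S5 s5 h5 =>
    (relabelAll hτ (s5 (s4 (s3 (s2 (s1 h0))))) (σ := fun u => η u + ξ u)
      (fun u => ((h4 (u.1, u.2.2)).2.1 u.2.1).mono s5)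
      (l' := fun u => k3 (1 - d.π u.1) 1 1 + k3 (d.π u.1) (1 - d.π u.2.1) 1) _
      (fun u => (r23 u).of_eq le_rfl (by ext; simp [k3, ι2]; ring))).bind fun S6 s6 h6 =>
    (d.stage i3 (s6 (s5 (s4 (s3 (s2 (s1 h0)))))) (fun i a => ξ (i.1, i.2, a) -
        (η (i.1, i.2, a) + ξ (i.1, i.2, a)))
      (fun i a => η (i.1, i.2, a) + ξ (i.1, i.2, a)) (zA 2)
      (fun i a => (h5 (i.1, i.2, a)).mono s6) (fun i a => h6 (i.1, i.2, a))
      (fun i a => (hA 2 i a).mono (s1.trans (s2.trans (s3.trans (s4.trans (s5.trans s6))))))).bind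
      fun S7 s7 h7 =>
    (gateAll (s7 (s6 (s5 (s4 (s3 (s2 (s1 h0))))))) (G := -1)
      (σ := fun u : A × A × A => ξ u - (η u + ξ u)) (fun u => (h7 (u.1, u.2.1)).1 u.2.2)
      (fun w w' hne => by
        have : w = w' := Compat.one id w w' (by simpa using hne)
        rw [this])).mono le_rfl
      (P' := fun S' => (∀ u, Known S' (app (Γ κ Bt (qstd _)) (zX u))) ∧
        (∀ u, Known S' (app (Γ κ Bt (qstd _)) (zY u))) ∧
        ∀ j i a, Known S' (app (Γ κ Bt (qstd _)) (zA j i a))) fun S8 s8 h8 => by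
      refine ⟨fun u => ?_, fun u => ?_, fun j i a => ?_⟩
      · have h9 := ((h7 (u.1, u.2.1)).2.1 u.2.2).mono s8
        have e : η u + ξ u + (ξ u - (η u + ξ u)) = ξ u := by abel
        simp only [Prod.mk.eta, e] at h9
        refine KW.finish (gu _ _ _) h9 ?_
        rw [← k3_one]
        ext
        simp [k3, ι3]
        ring_nf
        simp [CharTwo.two_eq_zero]
      · have h9 := h8 u
        have e : app (-1 : Matrix (A × A × A) (A × A × A) ℂ) (fun u => ξ u - (η u + ξ u)) u =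
            η u := by
          rw [← zero_sub, app_sub, app_one]
          simp [app]
        rw [e] at h9
        refine KW.finish g0 h9 ?_
        rw [← k3_one]
        ext
        simp [k3, ι3]
        ring
      · fin_cases j
        · exact ((h1 i).2.2 a).mono (s2.trans (s3.trans (s4.trans (s5.trans (s6.trans
            (s7.trans s8))))))
        · exact ((h4 i).2.2 a).mono (s5.trans (s6.trans (s7.trans s8)))
        · exact ((h7 i).2.2 a).mono s8
  refine key.mono (le_of_eq ?_) fun _ _ h => h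
  simp only [Finset.sum_const, Finset.card_univ, smul_eq_mul, Fintype.card_prod A, steps]
  push_cast
  ring

end Design

end Vale.Agent.P344
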