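import Mathlib
import Vale.Agent.P344.Stages

/-! The recursion for tensor powers of `Cm`. -/

namespace Vale.Agent.P344

open scoped Classical
open Matrix

variable {V : Type} [AddCommGroup V] [Module ℂ V]
variable {κ Bt : Type} [Fintype κ] [Fintype Bt]
variable {H A : Type} [Fintype H] [DecidableEq H] [Fintype A] [DecidableEq A] {k : ℕ}

abbrev Wt (H A : Type) := ((A × A × A) ⊕ (A × A × A)) ⊕ (Fin 3 × (A × A) × ((A × A) ⊕ H))

theorem Fast.mono {τ τ' : ℝ} (h : Fast V κ Bt τ) (hτ : τ ≤ τ') : Fast V κ Bt τ' :=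
  ⟨h.1.trans hτ, h.2.mono (mul_le_mul_of_nonneg_right hτ (by positivity))⟩

theorem Cost.inst {O I : Type} {i1 i2 : Fintype I} {M : Matrix O I ℂ} {c c' : ℝ}
    (h : @Cost V _ _ I O i1 M c) (e : c = c') : @Cost V _ _ I O i2 M c' := by
  cases Subsingleton.elim i1 i2
  exact e ▸ h

theorem fast_base : Fast V Unit Unit 4 := by
  refine ⟨by norm_num, (Cost.trivial (V := V) (TensB Unit Unit)).inst ?_⟩
  simp
  norm_num

theorem fast_of_blocks {M W : Type} [Fintype M] [DecidableEq M] [Fintype W] {τ : ℝ} (h0 : 0 ≤ τ)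
    (h1 : Cost V (blocks fun _ : W => Γ κ Bt (qstd M))
      (τ * (Fintype.card W * Fintype.card (Yt M κ Bt)))) : Fast V (κ × M) (W × Bt) τ := by
  refine ⟨h0, ?_⟩
  have h2 := h1.submatrix
    (fun o : (κ × M → ZMod 2) × (W × Bt) => (o.2.1, (fun c j => o.1 (c, j), o.2.2)))
    (fun o : (κ × M → ZMod 2) × (W × Bt) => (o.2.1, (fun c j => o.1 (c, j), o.2.2)))
    (by
      rintro ⟨a, b, c⟩ ⟨a', b', c'⟩ hh
      simp only [Prod.mk.injEq] at hh
      refine Prod.ext (funext fun p => congrFun (congrFun hh.2.1 p.1) p.2) (Prod.ext hh.1 hh.2.2))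
  have h3 : TensB (κ × M) (W × Bt) = (blocks fun _ : W => Γ κ Bt (qstd M)).submatrix
      (fun o : (κ × M → ZMod 2) × (W × Bt) => (o.2.1, (fun c j => o.1 (c, j), o.2.2)))
      (fun o : (κ × M → ZMod 2) × (W × Bt) => (o.2.1, (fun c j => o.1 (c, j), o.2.2))) := by
    ext o i
    simp only [TensB, kI, Γ, op_qstd, piT, Matrix.submatrix_apply, blocks, Prod.ext_iff]
    rw [Fintype.prod_prod_type]
    by_cases e1 : o.2.1 = i.2.1 <;> by_cases e2 : o.2.2 = i.2.2 <;> simp [e1, e2]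
  rw [h3]
  refine h2.inst ?_
  simp only [Fintype.card_prod, Fintype.card_fun, ZMod.card]
  push_cast
  rw [← pow_mul, mul_comm (Fintype.card κ)]
  ring

theorem app_blocks {P O I : Type} [Fintype P] [Fintype I] (M : Matrix O I ℂ) (x : P × I → V)
    (o : P × O) : app (blocks fun _ : P => M) x o = app M (fun y => x (o.1, y)) o.2 := by
  simp [app, blocks, Fintype.sum_prod_type]

theorem Design.step (d : Design H A k) {τ ρ g : ℝ} (hτ : Fast V κ Bt τ) (hρ0 : 0 ≤ ρ)
    (hρ : (Design.steps (Fintype.card A) k : ℝ) ≤ ρ * Fintype.card (Wt H A))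
    (hg0 : 0 ≤ g)
    (hg : (36 * Fintype.card A ^ 2 * Fintype.card (Wi H A) ^ 2 + 2 * (Fintype.card A ^ 3) ^ 2 : ℝ)
      ≤ g * Fintype.card (Wt H A)) :
    Fast V (κ × (H × H × H)) (Wt H A × Bt) (ρ * τ + g) := by
  have h0 := hτ.1
  refine fast_of_blocks (by positivity) ?_
  intro x S hS hx
  refine (d.network hτ hS (fun u y => x (.inl (.inl u), y)) (fun u y => x (.inl (.inr u), y))
    (fun j i a y => x (.inr (j, i, a), y)) (fun u y => hx _) (fun u y => hx _)
    (fun j i a y => hx _)).mono ?_ fun S' _ hP o => ?_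
  · have a1 := mul_le_mul_of_nonneg_right hρ
      (show (0 : ℝ) ≤ τ * Fintype.card (Yt (H × H × H) κ Bt) by positivity)
    have a2 := mul_le_mul_of_nonneg_right hg
      (show (0 : ℝ) ≤ Fintype.card (Yt (H × H × H) κ Bt) by positivity)
    linarith
  · rw [app_blocks]
    rcases o with ⟨(u | u) | ⟨j, i, a⟩, y⟩
    · exact hP.1 u y
    · exact hP.2.1 u y
    · exact hP.2.2 j i a y

theorem Design.iter (d : Design H A k) {ρ g : ℝ} (hρ2 : 2 ≤ ρ)
    (hρ : (Design.steps (Fintype.card A) k : ℝ) ≤ ρ * Fintype.card (Wt H A))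
    (hg0 : 0 ≤ g)
    (hg : (36 * Fintype.card A ^ 2 * Fintype.card (Wi H A) ^ 2 + 2 * (Fintype.card A ^ 3) ^ 2 : ℝ)
      ≤ g * Fintype.card (Wt H A)) (J : ℕ) :
    ∃ (κ Bt : Type) (_ : Fintype κ) (_ : Fintype Bt), Fintype.card κ = ((k + 2) ^ 3) ^ J ∧
      Fintype.card Bt = Fintype.card (Wt H A) ^ J ∧ Fast V κ Bt ((4 + g) * ρ ^ J - g) := by
  induction J with
  | zero => exact ⟨Unit, Unit, inferInstance, inferInstance, by simp, by simp, by
      simpa using fast_base⟩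
  | succ J ih =>
    obtain ⟨κ, Bt, _, _, h1, h2, h3⟩ := ih
    refine ⟨κ × (H × H × H), Wt H A × Bt, inferInstance, inferInstance, ?_, ?_,
      (d.step h3 (by linarith) hρ hg0 hg).mono ?_⟩
    · simp only [Fintype.card_prod, h1, d.card]; ring
    · rw [Fintype.card_prod, h2]; ring
    · rw [pow_succ]; nlinarith

end Vale.Agent.P344
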