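import Mathlib
import Vale.Agent.P344.Recur

/-! The design formed by the triples in a set of 24 points. -/

namespace Vale.Agent.P344

open scoped Classical
open Matrix

variable {H : Type} [Fintype H] [DecidableEq H]

omit [Fintype H] [DecidableEq H] in
theorem dec_sum {J : Type} (s : Finset J) (f : J → H → ZMod 2) :
    Dec s.card (∑ j ∈ s, vecMulVec (f j) (f j)) :=
  ⟨s, inferInstance, fun j => f j, by simp,
    (Finset.sum_coe_sort s fun j => vecMulVec (f j) (f j)).symm⟩

def bas (w1 w2 : H → ZMod 2) (j : H) : H → ZMod 2 := Pi.single j 1 + w1 j • w1 + w2 j • w2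

theorem bas_sum (w1 w2 : H → ZMod 2) (h11 : w1 ⬝ᵥ w1 = 0) (h22 : w2 ⬝ᵥ w2 = 0)
    (h12 : w1 ⬝ᵥ w2 = 0) : ∑ j, vecMulVec (bas w1 w2 j) (bas w1 w2 j) = 1 := by
  ext x y
  have e : ∀ j, bas w1 w2 j x * bas w1 w2 j y =
      (if j = x then bas w1 w2 j y else 0) + (if j = y then w1 j * w1 x + w2 j * w2 x else 0) +
      w1 x * w1 y * (w1 j * w1 j) + w2 x * w2 y * (w2 j * w2 j) +
      (w1 x * w2 y + w2 x * w1 y) * (w1 j * w2 j) := by
    intro j
    simp only [bas, Pi.add_apply, Pi.smul_apply, smul_eq_mul, Pi.single_apply, eq_comm (a := x),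
      eq_comm (a := y)]
    split_ifs <;> ring
  simp only [Matrix.sum_apply, vecMulVec_apply, e, Finset.sum_add_distrib, ← Finset.mul_sum,
    Finset.sum_ite_eq', Finset.mem_univ, if_true]
  simp only [dotProduct] at h11 h22 h12
  rw [h11, h22, h12]
  simp only [bas, Pi.add_apply, Pi.smul_apply, smul_eq_mul, Pi.single_apply, Matrix.one_apply,
    eq_comm (a := y)]
  ring_nf
  simp [CharTwo.two_eq_zero]

theorem dec_one_sub (f : H → H → ZMod 2) (hf : ∑ j, vecMulVec (f j) (f j) = 1) (a : H) :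
    Dec (Fintype.card H - 1) (1 - vecMulVec (f a) (f a)) :=
  (dec_sum (Finset.univ.erase a) f).of_eq (by simp) (by
    rw [← hf, Finset.sum_erase_eq_sub (Finset.mem_univ a)])

theorem dec_one_sub_sub (f : H → H → ZMod 2) (hf : ∑ j, vecMulVec (f j) (f j) = 1) {a b : H}
    (hab : b ≠ a) :
    Dec (Fintype.card H - 2) (1 - vecMulVec (f a) (f a) - vecMulVec (f b) (f b)) :=
  (dec_sum ((Finset.univ.erase a).erase b) f).of_eq (by
    rw [Finset.card_erase_of_mem (by simpa using hab)]; simp; omega) (by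
    rw [← hf, Finset.sum_erase_eq_sub (by simpa using hab),
      Finset.sum_erase_eq_sub (Finset.mem_univ a)])

def ind (S : Finset H) : H → ZMod 2 := fun j => if j ∈ S then 1 else 0

theorem ind_dot (S T : Finset H) : ind S ⬝ᵥ ind T = ((S ∩ T).card : ZMod 2) := by
  simp only [ind, dotProduct, ite_mul, one_mul, zero_mul, ← ite_and, ← Finset.mem_inter]
  simp [-Finset.mem_inter]

theorem ind_four {S : Finset H} (h : S.card = 4) : ind S ⬝ᵥ ind S = 0 := by
  rw [ind_dot, Finset.inter_self, h]; rfl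

omit [Fintype H] in
theorem bas_ind {S : Finset H} {a : H} (ha : a ∉ S) (w : H → ZMod 2) (hw : w a = 0) :
    bas (ind (insert a S)) w a = ind S := by
  funext j
  simp only [bas, ind, hw, Pi.add_apply, Pi.smul_apply, Pi.single_apply, Finset.mem_insert]
  by_cases h : j = a
  · subst h; simp [ha]; rfl
  · simp [h]

omit [Fintype H] in
theorem bas_comm (w1 w2 : H → ZMod 2) : bas w1 w2 = bas w2 w1 := by
  funext j; simp only [bas]; abel

abbrev Tri := {S : Finset (Fin 24) // S.card = 3}

theorem card_Tri : Fintype.card Tri = 2024 := by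
  rw [Fintype.card_finset_len]; simp; rfl

theorem exists_notMem {S : Finset (Fin 24)} (h : S.card < 24) : ∃ a, a ∉ S := by
  by_contra hh
  push Not at hh
  rw [Finset.eq_univ_iff_forall.mpr hh] at h
  simp at h

noncomputable def triples : Design (Fin 24) Tri 22 where
  t S := ind S.1
  n S T := (if S = T then 1 else 0) - (((S.1 ∩ T.1).card : ℂ) - 1) / 2
  ρ T j := (if j ∈ T.1 then 1 / 2 else 0) - 1 / 6
  γ S j := if j ∈ S.1 then 1 else 0
  card := by simp
  ident S T := by
    have h1 : ∑ j, ((if j ∈ T.1 then (1 / 2 : ℂ) else 0) - 1 / 6) * (if j ∈ S.1 then 1 else 0) =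
        (((S.1 ∩ T.1).card : ℂ) - 1) / 2 := by
      simp [S.2]
      ring
    rw [h1]; ring
  d1 S := by
    obtain ⟨a, ha⟩ := exists_notMem (S := S.1) (by rw [S.2]; norm_num)
    have := dec_one_sub _ (bas_sum (ind (insert a S.1)) 0
      (ind_four (by rw [Finset.card_insert_of_notMem ha, S.2])) (by simp) (by simp)) a
    rwa [bas_ind ha _ rfl] at this
  d2 S T hn := by
    have hST : S ≠ T := by
      rintro rfl
      simp [S.2] at hn
      norm_num at hn
    have h1 : (S.1 ∩ T.1).card ≠ 1 := by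
      intro h; simp [hST, h] at hn
    have h3 : (S.1 ∩ T.1).card ≠ 3 := by
      intro h
      have e1 := Finset.eq_of_subset_of_card_le (Finset.inter_subset_left (s₁ := S.1) (s₂ := T.1))
        (by rw [h, S.2])
      have e2 := Finset.eq_of_subset_of_card_le (Finset.inter_subset_right (s₁ := S.1) (s₂ := T.1))
        (by rw [h, T.2])
      exact hST (Subtype.ext (e1.symm.trans e2))
    have h4 : (S.1 ∩ T.1).card ≤ 3 := (Finset.card_le_card Finset.inter_subset_left).trans S.2.le
    have hu := Finset.card_union_add_card_inter S.1 T.1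
    rw [S.2, T.2] at hu
    by_cases h0 : (S.1 ∩ T.1).card = 0
    · obtain ⟨a, ha⟩ := exists_notMem (S := S.1 ∪ T.1) (by omega)
      obtain ⟨b, hb⟩ := exists_notMem (S := insert a (S.1 ∪ T.1)) (by
        rw [Finset.card_insert_of_notMem ha]; omega)
      simp only [Finset.mem_insert, Finset.mem_union, not_or] at ha hb
      have hd : insert a S.1 ∩ insert b T.1 = ∅ := by
        rw [Finset.card_eq_zero] at h0
        ext j
        have := Finset.ext_iff.mp h0 j
        simp only [Finset.mem_inter, Finset.mem_insert, Finset.notMem_empty, iff_false] at this ⊢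
        rintro ⟨rfl | h, rfl | h'⟩ <;> simp_all
      have := dec_one_sub_sub _ (bas_sum (ind (insert a S.1)) (ind (insert b T.1))
        (ind_four (by rw [Finset.card_insert_of_notMem ha.1, S.2]))
        (ind_four (by rw [Finset.card_insert_of_notMem hb.2.2, T.2]))
        (by rw [ind_dot, hd]; simp)) (Ne.symm hb.1)
      rwa [bas_ind ha.1 _ (by simp [ind, ha.2, Ne.symm hb.1]), bas_comm,
        bas_ind hb.2.2 _ (by simp [ind, hb.1, hb.2.1])] at this
    · have h2 : (S.1 ∩ T.1).card = 2 := by omega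
      have c1 : (S.1 \ T.1).card = 1 := by
        have := Finset.card_sdiff_add_card_inter S.1 T.1
        rw [S.2] at this; omega
      have c2 : (T.1 \ S.1).card = 1 := by
        have := Finset.card_sdiff_add_card_inter T.1 S.1
        rw [T.2, Finset.inter_comm] at this; omega
      obtain ⟨a, ha⟩ := Finset.card_eq_one.mp c1
      obtain ⟨b, hb⟩ := Finset.card_eq_one.mp c2
      have ha' := Finset.mem_sdiff.mp (ha ▸ Finset.mem_singleton_self a)
      have hb' := Finset.mem_sdiff.mp (hb ▸ Finset.mem_singleton_self b)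
      have e1 : insert a T.1 = S.1 ∪ T.1 := by
        rw [← Finset.sdiff_union_self_eq_union, ha]; rfl
      have e2 : insert b S.1 = S.1 ∪ T.1 := by
        rw [Finset.union_comm, ← Finset.sdiff_union_self_eq_union, hb]; rfl
      have := dec_one_sub_sub _ (bas_sum (ind (S.1 ∪ T.1)) 0 (ind_four (by omega)) (by simp)
        (by simp)) (a := a) (b := b) (by rintro rfl; exact hb'.2 ha'.1)
      have e3 := bas_ind ha'.2 0 rfl
      have e4 := bas_ind hb'.2 0 rfl
      rw [e1] at e3
      rw [e2] at e4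
      rwa [e3, e4] at this

theorem card_Wt : Fintype.card (Wt (Fin 24) Tri) = 2 * 2024 ^ 3 + 3 * (2024 ^ 2 * (2024 ^ 2 + 24)) := by
  simp only [Fintype.card_sum, Fintype.card_prod, card_Tri, Fintype.card_fin]
  norm_num

theorem rho_le : (13824 * (1 - 3 / 10 ^ 9) : ℝ) ≤ (13824 : ℝ) ^ (1 - 3 / 10 ^ 10 : ℝ) := by
  have h1 : Real.log 13824 ≤ 10 := by
    have : Real.log 13824 ≤ Real.log (2 ^ 14) := Real.log_le_log (by norm_num) (by norm_num)
    rw [Real.log_pow] at this
    have := Real.log_two_lt_d9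
    push_cast at *
    linarith
  rw [Real.rpow_sub (by norm_num), Real.rpow_one, div_eq_mul_inv (13824 : ℝ),
    ← Real.rpow_neg (by norm_num), Real.rpow_def_of_pos (by norm_num)]
  have := Real.add_one_le_exp (Real.log 13824 * -(3 / 10 ^ 10))
  nlinarith

theorem fast_exists : ∃ (W : ℕ) (c : ℝ), 1 ≤ W ∧ 0 ≤ c ∧
    ∀ (V : Type) [AddCommGroup V] [Module ℂ V] (J : ℕ), ∃ (κ Bt : Type) (_ : Fintype κ) (_ : Fintype Bt),
      Fintype.card κ = 13824 ^ J ∧ Fintype.card Bt = W ^ J ∧
      Fast V κ Bt (c * ((13824 ^ J : ℕ) : ℝ) ^ (1 - 3 / 10 ^ 10 : ℝ)) := by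
  obtain ⟨g, hg⟩ : ∃ g : ℝ, g = 36 * Fintype.card Tri ^ 2 * Fintype.card (Wi (Fin 24) Tri) ^ 2 +
    2 * (Fintype.card Tri ^ 3) ^ 2 := ⟨_, rfl⟩
  have hg0 : 0 ≤ g := by rw [hg]; positivity
  have hW : 1 ≤ Fintype.card (Wt (Fin 24) Tri) := by rw [card_Wt]; norm_num
  refine ⟨_, 4 + g, hW, by positivity, fun V _ _ J => ?_⟩
  obtain ⟨κ, Bt, _, _, h1, h2, h3⟩ := triples.iter (V := V) (ρ := 13824 * (1 - 3 / 10 ^ 9))
    (g := g) (by norm_num) (by
      rw [card_Wt, card_Tri]
      norm_num [Design.steps]) hg0 (by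
      rw [← hg]
      exact le_mul_of_one_le_right hg0 (by exact_mod_cast hW)) J
  refine ⟨κ, Bt, inferInstance, inferInstance, h1, h2, h3.mono ?_⟩
  have h4 : (13824 * (1 - 3 / 10 ^ 9) : ℝ) ^ J ≤ ((13824 ^ J : ℕ) : ℝ) ^ (1 - 3 / 10 ^ 10 : ℝ) := by
    push_cast
    rw [← Real.rpow_natCast_mul (by norm_num), mul_comm (J : ℝ), Real.rpow_mul_natCast (by norm_num)]
    exact pow_le_pow_left₀ (by norm_num) rho_le J
  have := mul_le_mul_of_nonneg_left h4 (show 0 ≤ 4 + g by positivity)
  linarith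

end Vale.Agent.P344
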