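import Mathlib
import Vale.Agent.P344.Triples
import Vale.Agent.P344.Small

/-! Assembly: the Fourier transform of length `n` through a product of cyclic groups. -/

namespace Vale.Agent.P344

open scoped Classical
open Matrix

variable {V : Type} [AddCommGroup V] [Module ℂ V]

theorem cost_dft {ι Bt : Type} [Fintype ι] [Fintype Bt] (r : ι → ℕ) [∀ j, NeZero (r j)]
    (hr : Pairwise fun i j => Nat.Coprime (r i) (r j)) (hodd : ∀ j, Nat.Coprime (r j) 2)
    {b : ℕ} (hb : ∀ j, r j ≤ 2 ^ b) {τ : ℝ} (hτ : Fast V ι Bt τ) (e n nb : ℕ)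
    (hn : 2 * n ≤ (∏ j, r j) * 2 ^ e) (hnb : 2 ^ e ≤ nb * (6 ^ Fintype.card ι * Fintype.card Bt)) :
    Cost V (Matrix.of fun j k : Fin n =>
      Complex.exp (2 * Real.pi * Complex.I / n) ^ ((j : ℕ) * (k : ℕ)))
      (2 * (((2 * (72 * (b + 1) + 36) : ℕ) * (τ + 1) + 1) *
        ((∏ j, r j : ℕ) * (nb * (6 ^ Fintype.card ι * Fintype.card Bt) : ℕ)) +
        (10 * e + 1) * ((∏ j, r j) * 2 ^ e : ℕ)) + ((∏ j, r j) * 2 ^ e : ℕ) + 2 * n) := by
  have h1 := cost_pi_word (V := V) (fun j => word_six (r j) b (hb j)) hτ.2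
  have h2 : Cost V (kI (piT fun j => zFT (r j)) ((ι → Fin 3 × Bool) × Bt)) _ :=
    (h1.submatrix
      (fun o : (∀ j, ZMod (r j)) × ((ι → Fin 3 × Bool) × Bt) => (fun j => (o.1 j, o.2.1 j), o.2.2))
      (fun o : (∀ j, ZMod (r j)) × ((ι → Fin 3 × Bool) × Bt) => (fun j => (o.1 j, o.2.1 j), o.2.2))
      (by
        rintro ⟨a, b, c⟩ ⟨a', b', c'⟩ hh
        simp only [Prod.mk.injEq] at hh
        exact Prod.ext (funext fun j => (Prod.ext_iff.mp (congrFun hh.1 j)).1)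
          (Prod.ext (funext fun j => (Prod.ext_iff.mp (congrFun hh.1 j)).2) hh.2))).of_eq (by
      ext o i
      simp only [kI, piT, Matrix.submatrix_apply, Prod.ext_iff]
      have := prod_ite_eq_pi (I := fun _ : ι => Fin 3 × Bool) o.2.1 i.2.1
        (fun j => zFT (r j) (o.1 j) (i.1 j))
      simp only [Prod.ext_iff] at this
      rw [show (∏ j, if (o.2.1 j).1 = (i.2.1 j).1 ∧ (o.2.1 j).2 = (i.2.1 j).2 then
        zFT (r j) (o.1 j) (i.1 j) else 0) = _ by convert this]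
      by_cases e1 : o.2.1 = i.2.1 <;> by_cases e2 : o.2.2 = i.2.2 <;> simp [e1, e2])
  have h3 := h2.batch (E := ZMod (2 ^ e)) nb (by simpa using hnb)
  have h4 := h3.kron (word_zFT e).cost
  have hFT := (IsFT.piT fun j => isFT_zFT (r j)).kron (isFT_zFT (2 ^ e))
  have hφ : ∀ a : ℤ, |a| < 2 * n →
      Int.castAddHom ((∀ j, ZMod (r j)) × ZMod (2 ^ e)) a = 0 → a = 0 := by
    intro a ha h0
    have a1 : ∀ j, (r j : ℤ) ∣ a := fun j =>
      (ZMod.intCast_zmod_eq_zero_iff_dvd a (r j)).mp (congrFun (congrArg Prod.fst h0) j)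
    have a2 : ((2 ^ e : ℕ) : ℤ) ∣ a :=
      (ZMod.intCast_zmod_eq_zero_iff_dvd a (2 ^ e)).mp (congrArg Prod.snd h0)
    have a3 : ((∏ j, r j : ℕ) : ℤ) ∣ a := by
      push_cast
      exact Fintype.prod_dvd_of_coprime (fun i j hij => Nat.isCoprime_iff_coprime.mpr (hr hij)) a1
    have a4 : (((∏ j, r j) * 2 ^ e : ℕ) : ℤ) ∣ a := by
      rw [Nat.cast_mul]
      exact (Nat.isCoprime_iff_coprime.mpr
        (Nat.Coprime.prod_left fun j _ => (hodd j).pow_right e)).mul_dvd a3 a2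
    refine Int.eq_zero_of_abs_lt_dvd a4 (ha.trans_le ?_)
    exact_mod_cast hn
  obtain ⟨μ, -, hμ⟩ := hFT.toeplitz n _ hφ (fun a => (chirp n a)⁻¹)
  have h5 := (cost_op h4 μ).submatrix
    (fun j : Fin n => Int.castAddHom ((∀ j, ZMod (r j)) × ZMod (2 ^ e)) (j : ℕ))
    (fun j : Fin n => Int.castAddHom ((∀ j, ZMod (r j)) × ZMod (2 ^ e)) (j : ℕ)) (by
      intro j k hjk
      have hj := j.2
      have hk := k.2
      have := hφ (((j : ℕ) : ℤ) - (k : ℕ)) (by rw [abs_lt]; omega) (by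
        rw [map_sub]; exact sub_eq_zero.mpr hjk)
      exact Fin.ext (by omega))
  have h6 := (isMono_diagonal fun j : Fin n => chirp n (j : ℕ)).cost (V := V)
  refine (((h6.mul h5).mul h6).mono (le_of_eq ?_)).of_eq ?_
  · simp only [Fintype.card_prod, Fintype.card_pi, ZMod.card, Fintype.card_fin, Fintype.card_bool,
      Finset.prod_mul_distrib, Finset.prod_const, Finset.card_univ]
    push_cast
    rw [show (6 : ℝ) = 3 * 2 by norm_num, mul_pow]
    ring
  · ext j k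
    rw [Matrix.mul_diagonal, Matrix.diagonal_mul, Matrix.submatrix_apply, hμ, Matrix.of_apply,
      chirp_id]

theorem exists_primes : ∃ p : ℕ → ℕ, ∀ j, (p j).Prime ∧ 2 ^ (j + 1) < p j ∧ p j ≤ 2 ^ (j + 2) := by
  choose p hp using fun j : ℕ => Nat.exists_prime_lt_and_le_two_mul (2 ^ (j + 1)) (by positivity)
  exact ⟨p, fun j => ⟨(hp j).1, (hp j).2.1, by rw [pow_succ']; exact (hp j).2.2⟩⟩

theorem params (p : ℕ → ℕ) (hp : ∀ j, 2 ^ (j + 1) < p j ∧ p j ≤ 2 ^ (j + 2)) (c n : ℕ)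
    (hn : 2 ≤ n) : ∃ d e : ℕ, (∏ j ∈ Finset.range d, p j) * 2 ^ (c * d) ≤ n ∧
      2 * n ≤ (∏ j ∈ Finset.range d, p j) * 2 ^ e ∧ (∏ j ∈ Finset.range d, p j) * 2 ^ e ≤ 4 * n ∧
      e ≤ (c + 4) * (d + 1) ∧ ((d : ℝ) + 1) ^ 2 ≤ 4 * Real.logb 2 n := by
  have h1 : ∀ d, 2 ^ (d * (d + 1)) ≤ (∏ j ∈ Finset.range d, p j) ^ 2 := by
    intro d
    induction d with
    | zero => simp
    | succ d ih =>
      rw [Finset.prod_range_succ, mul_pow,
        show (d + 1) * (d + 1 + 1) = d * (d + 1) + (d + 1) * 2 by ring, pow_add, pow_mul 2 (d + 1)]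
      exact Nat.mul_le_mul ih (Nat.pow_le_pow_left (hp d).1.le 2)
  have h0 : ∀ d, 0 < ∏ j ∈ Finset.range d, p j := fun d =>
    Finset.prod_pos fun j _ => lt_trans (by positivity) (hp j).1
  have ex1 : ∃ d, n < (∏ j ∈ Finset.range (d + 1), p j) * 2 ^ (c * (d + 1)) := by
    refine ⟨n, lt_of_lt_of_le ?_ (Nat.le_mul_of_pos_right _ (by positivity))⟩
    rw [Finset.prod_range_succ]
    refine lt_of_lt_of_le ?_ (Nat.le_mul_of_pos_left _ (h0 n))
    exact lt_trans (lt_trans (Nat.lt_succ_self n) Nat.lt_two_pow_self) (hp n).1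
  obtain ⟨d, hd1, hd2⟩ : ∃ d, n < (∏ j ∈ Finset.range (d + 1), p j) * 2 ^ (c * (d + 1)) ∧
      (∏ j ∈ Finset.range d, p j) * 2 ^ (c * d) ≤ n := by
    refine ⟨Nat.find ex1, Nat.find_spec ex1, ?_⟩
    rcases h : Nat.find ex1 with _ | d
    · simp; omega
    · exact not_lt.mp (Nat.find_min ex1 (by omega : d < Nat.find ex1))
  have hd3 : (∏ j ∈ Finset.range d, p j) ≤ n :=
    le_trans (Nat.le_mul_of_pos_right _ (by positivity)) hd2
  have ex2 : ∃ e, 2 * n ≤ (∏ j ∈ Finset.range d, p j) * 2 ^ e :=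
    ⟨2 * n, le_trans Nat.lt_two_pow_self.le (Nat.le_mul_of_pos_left _ (h0 d))⟩
  obtain ⟨e, he1, he2⟩ : ∃ e, 2 * n ≤ (∏ j ∈ Finset.range d, p j) * 2 ^ e ∧
      (∏ j ∈ Finset.range d, p j) * 2 ^ e ≤ 4 * n := by
    refine ⟨Nat.find ex2, Nat.find_spec ex2, ?_⟩
    rcases h : Nat.find ex2 with _ | e
    · simp; omega
    · have := not_le.mp (Nat.find_min ex2 (by omega : e < Nat.find ex2))
      rw [pow_succ, ← mul_assoc]
      omega
  refine ⟨d, e, hd2, he1, he2, ?_, ?_⟩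
  · have a1 : (∏ j ∈ Finset.range d, p j) * 2 ^ e ≤
        (∏ j ∈ Finset.range d, p j) * 2 ^ (2 + (d + 2) + c * (d + 1)) := by
      rw [Finset.prod_range_succ] at hd1
      have a2 := Nat.mul_le_mul_right (2 ^ (c * (d + 1)))
        (Nat.mul_le_mul_left (∏ j ∈ Finset.range d, p j) (hp d).2)
      rw [pow_add, pow_add]
      nlinarith
    have a2 := (Nat.pow_le_pow_iff_right (by norm_num)).mp (Nat.le_of_mul_le_mul_left a1 (h0 d))
    nlinarith
  · have hn' : (2 : ℝ) ≤ n := by exact_mod_cast hn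
    have a1 : (2 : ℝ) ^ (d * (d + 1)) ≤ (n : ℝ) ^ 2 := by
      exact_mod_cast (h1 d).trans (Nat.pow_le_pow_left hd3 2)
    have a2 := Real.logb_le_logb_of_le (b := 2) (by norm_num) (by positivity) a1
    rw [Real.logb_pow, Real.logb_pow, Real.logb_self_eq_one (by norm_num)] at a2
    have a3 := Real.logb_le_logb_of_le (b := 2) (by norm_num) (by positivity) hn'
    rw [Real.logb_self_eq_one (by norm_num)] at a3
    have a4 : (2 * d : ℝ) ≤ d * (d + 1) := by
      have : 2 * d ≤ d * (d + 1) := by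
        rcases d with _ | d <;> nlinarith
      exact_mod_cast this
    push_cast at a2
    nlinarith

theorem clog_bound (m d : ℕ) (hm : 1 < m) : m ^ Nat.clog m d ≤ m * (d + 1) := by
  rcases le_or_gt d 1 with h | h
  · rw [Nat.clog_of_right_le_one h]; nlinarith
  · have h1 := Nat.pow_pred_clog_lt_self hm h
    have h2 := Nat.clog_pos hm h
    obtain ⟨c, hc⟩ : ∃ c, Nat.clog m d = c + 1 := ⟨_, (Nat.succ_pred_eq_of_pos h2).symm⟩
    rw [hc] at h1 ⊢
    rw [pow_succ']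
    exact Nat.mul_le_mul_left _ (by simp at h1; omega)

theorem main_bound : ∃ C : ℝ, ∀ n : ℕ, 2 ≤ n →
    (L n : ℝ) ≤ C * n * Real.logb 2 n ^ (1 - 1 / 10 ^ 10 : ℝ) := by
  obtain ⟨W, c, hW, hc, H⟩ := fast_exists
  obtain ⟨p, hp⟩ := exists_primes
  obtain ⟨c0, hc0⟩ : ∃ c0, c0 = 6 * W * 13824 := ⟨_, rfl⟩
  refine ⟨4 * (2 * ((360 * (c * 13824 + 1) + 1) * (4 + 2 ^ c0) + (10 * (c0 + 4) + 1) * 4) + 6),
    fun n hn => ?_⟩
  obtain ⟨d, e, h1, h2, h3, h4, h5⟩ := params p (fun j => (hp j).2) c0 n hn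
  obtain ⟨κ, Bt, _, _, hκ, hB, hF⟩ := H ((Fin n → ℂ) → ℂ) (Nat.clog 13824 d)
  have hD1 : d ≤ 13824 ^ Nat.clog 13824 d := Nat.le_pow_clog (by norm_num) d
  have hD2 := clog_bound 13824 d (by norm_num)
  have hD3 : Nat.clog 13824 d ≤ 13824 ^ Nat.clog 13824 d := (Nat.lt_pow_self (by norm_num)).le
  generalize 13824 ^ Nat.clog 13824 d = D at *
  let ε := Fintype.equivFinOfCardEq hκ
  let r : κ → ℕ := fun j => if (ε j : ℕ) < d then p (ε j) else 1
  have hmono : StrictMono p := strictMono_nat_of_lt_succ fun j => (hp j).2.2.trans_lt (hp _).2.1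
  have : ∀ j, NeZero (r j) := fun j => ⟨by
    simp only [r]; split_ifs
    · exact (hp _).1.ne_zero
    · norm_num⟩
  have hprod : ∏ j, r j = ∏ j ∈ Finset.range d, p j := by
    rw [Fintype.prod_equiv ε r (fun i => if (i : ℕ) < d then p i else 1) (fun _ => rfl),
      Fin.prod_univ_eq_prod_range (fun i => if i < d then p i else 1), ← Finset.prod_filter]
    congr 1
    ext i
    simp only [Finset.mem_filter, Finset.mem_range]
    omega
  obtain ⟨β, hβ⟩ : ∃ β, β = 6 ^ Fintype.card κ * Fintype.card Bt := ⟨_, rfl⟩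
  have hβ0 : 0 < β := by rw [hβ, hB]; positivity
  have hβ1 : β ≤ 2 ^ (c0 * (d + 1)) := by
    rw [hβ, hκ, hB]
    calc 6 ^ D * W ^ Nat.clog 13824 d ≤ 6 ^ D * W ^ D :=
          Nat.mul_le_mul_left _ (Nat.pow_le_pow_right hW hD3)
      _ = (6 * W) ^ D := (mul_pow _ _ _).symm
      _ ≤ (2 ^ (6 * W)) ^ D := Nat.pow_le_pow_left Nat.lt_two_pow_self.le _
      _ ≤ 2 ^ (c0 * (d + 1)) := by
          rw [← pow_mul, hc0, mul_assoc (6 * W)]
          exact Nat.pow_le_pow_right (by norm_num) (Nat.mul_le_mul_left _ hD2)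
  have key := L_le (cost_dft r (fun i j hij => by
      simp only [r]
      split_ifs
      · exact (Nat.coprime_primes (hp _).1 (hp _).1).mpr fun h =>
          hij (ε.injective (Fin.ext (hmono.injective h)))
      all_goals simp)
    (fun j => by
      simp only [r]
      split_ifs
      · refine (Nat.coprime_primes (hp _).1 Nat.prime_two).mpr fun h => ?_
        have := (hp (ε j)).2.1
        have := Nat.one_le_two_pow (n := ε j)
        rw [pow_succ] at *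
        omega
      · simp)
    (b := d + 1) (fun j => by
      simp only [r]
      split_ifs with h
      · exact (hp _).2.2.trans (Nat.pow_le_pow_right (by norm_num) (by omega))
      · exact Nat.one_le_two_pow)
    hF e n (2 ^ e / β + 1) (hprod ▸ h2) (by
      rw [← hβ, mul_comm]; exact (Nat.lt_mul_div_succ _ hβ0).le))
  rw [hprod, ← hβ, ← Nat.cast_mul] at key
  have b1 : (∏ j ∈ Finset.range d, p j) * ((2 ^ e / β + 1) * β) ≤ (4 + 2 ^ c0) * n := by
    have a1 := Nat.mul_le_mul_left (∏ j ∈ Finset.range d, p j) (Nat.div_mul_le_self (2 ^ e) β)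
    have a2 := Nat.mul_le_mul_left (∏ j ∈ Finset.range d, p j) hβ1
    have a3 := Nat.mul_le_mul_left (2 ^ c0) h1
    rw [mul_add c0, pow_add, mul_one] at a2
    nlinarith
  generalize (∏ j ∈ Finset.range d, p j) * ((2 ^ e / β + 1) * β) = X at key b1
  generalize (∏ j ∈ Finset.range d, p j) * 2 ^ e = Y at key h3
  have b1' : (X : ℝ) ≤ (4 + 2 ^ c0) * n := by exact_mod_cast b1
  have b2 : (Y : ℝ) ≤ 4 * n := by exact_mod_cast h3
  have b3 : (e : ℝ) ≤ (c0 + 4) * (d + 1) := by exact_mod_cast h4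
  have hy : (1 : ℝ) ≤ d + 1 := by have := Nat.cast_nonneg (α := ℝ) d; linarith
  have hx : (1 : ℝ) ≤ (d + 1 : ℝ) ^ (1 - 3 / 10 ^ 10 : ℝ) := Real.one_le_rpow hy (by norm_num)
  have b4 : (D : ℝ) ^ (1 - 3 / 10 ^ 10 : ℝ) ≤ 13824 * (d + 1 : ℝ) ^ (1 - 3 / 10 ^ 10 : ℝ) := by
    have a1 : (D : ℝ) ≤ 13824 * (d + 1) := by exact_mod_cast hD2
    refine (Real.rpow_le_rpow (by positivity) a1 (by norm_num)).trans ?_
    rw [Real.mul_rpow (by norm_num) (by positivity)]
    refine mul_le_mul_of_nonneg_right ?_ (by positivity)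
    exact (Real.rpow_le_rpow_of_exponent_le (by norm_num) (by norm_num)).trans_eq (Real.rpow_one _)
  have hl : 1 ≤ Real.logb 2 n := by
    have a3 := Real.logb_le_logb_of_le (b := 2) (by norm_num) (by positivity)
      (show (2 : ℝ) ≤ n by exact_mod_cast hn)
    rwa [Real.logb_self_eq_one (by norm_num)] at a3
  have b5 : (d + 1 : ℝ) * (d + 1 : ℝ) ^ (1 - 3 / 10 ^ 10 : ℝ) ≤
      4 * Real.logb 2 n ^ (1 - 1 / 10 ^ 10 : ℝ) := by
    calc (d + 1 : ℝ) * (d + 1 : ℝ) ^ (1 - 3 / 10 ^ 10 : ℝ)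
        = (d + 1 : ℝ) ^ (1 + (1 - 3 / 10 ^ 10) : ℝ) := by
          rw [Real.rpow_add (by positivity), Real.rpow_one]
      _ ≤ (d + 1 : ℝ) ^ ((2 : ℕ) * (1 - 1 / 10 ^ 10) : ℝ) :=
          Real.rpow_le_rpow_of_exponent_le hy (by norm_num)
      _ = ((d + 1 : ℝ) ^ 2) ^ (1 - 1 / 10 ^ 10 : ℝ) := Real.rpow_natCast_mul (by positivity) _ _
      _ ≤ (4 * Real.logb 2 n) ^ (1 - 1 / 10 ^ 10 : ℝ) :=
          Real.rpow_le_rpow (by positivity) h5 (by norm_num)
      _ ≤ 4 * Real.logb 2 n ^ (1 - 1 / 10 ^ 10 : ℝ) := by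
          rw [Real.mul_rpow (by norm_num) (by positivity)]
          refine mul_le_mul_of_nonneg_right ?_ (by positivity)
          exact (Real.rpow_le_rpow_of_exponent_le (by norm_num) (by norm_num)).trans_eq
            (Real.rpow_one _)
  generalize (d + 1 : ℝ) ^ (1 - 3 / 10 ^ 10 : ℝ) = x at *
  generalize (D : ℝ) ^ (1 - 3 / 10 ^ 10 : ℝ) = z at *
  have hn0 : (0 : ℝ) ≤ n := by positivity
  have hxy : (1 : ℝ) ≤ (d + 1) * x := one_le_mul_of_one_le_of_one_le hy hx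
  have b6 : ((2 * (72 * (d + 1 + 1) + 36) : ℕ) : ℝ) * (c * z + 1) + 1 ≤
      (360 * (c * 13824 + 1) + 1) * ((d + 1) * x) := by
    have a1 : ((2 * (72 * (d + 1 + 1) + 36) : ℕ) : ℝ) ≤ 360 * (d + 1) := by
      push_cast; linarith
    have a2 : c * z + 1 ≤ (c * 13824 + 1) * x := by nlinarith
    have a3 := mul_le_mul a1 a2 (by have := hF.1; linarith) (by positivity)
    nlinarith
  have b7 : (10 * e + 1 : ℝ) ≤ (10 * (c0 + 4) + 1) * ((d + 1) * x) := by
    have a1 : (c0 + 4 : ℝ) * (d + 1) ≤ (c0 + 4) * ((d + 1) * x) :=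
      mul_le_mul_of_nonneg_left (le_mul_of_one_le_right (by positivity) hx) (by positivity)
    nlinarith
  have b8 := mul_le_mul b6 b1' (by positivity) (by positivity)
  have b9 := mul_le_mul b7 b2 (by positivity) (by positivity)
  have b10 := mul_le_mul_of_nonneg_left hxy hn0
  have b11 := mul_le_mul_of_nonneg_left b5 (show (0 : ℝ) ≤
    (2 * ((360 * (c * 13824 + 1) + 1) * (4 + 2 ^ c0) + (10 * (c0 + 4) + 1) * 4) + 6) * n by
      positivity)
  nlinarith

theorem not_lower : ¬ ∃ c : ℝ, 0 < c ∧ ∀ᶠ n : ℕ in Filter.atTop,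
    c * n * Real.logb 2 n ≤ L n := by
  rintro ⟨c, hc, h⟩
  obtain ⟨C, hC⟩ := main_bound
  have h1 : Filter.Tendsto (fun n : ℕ => c * Real.logb 2 n ^ (1 / 10 ^ 10 : ℝ)) Filter.atTop
      Filter.atTop :=
    ((tendsto_rpow_atTop (by norm_num)).comp ((Real.tendsto_logb_atTop (by norm_num)).comp
      tendsto_natCast_atTop_atTop)).const_mul_atTop hc
  obtain ⟨n, h2, h3, h4⟩ := (h.and ((h1.eventually_gt_atTop C).and
    (Filter.eventually_ge_atTop 2))).exists
  have hn : (2 : ℝ) ≤ n := by exact_mod_cast h4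
  have hl : 0 < Real.logb 2 n := Real.logb_pos (by norm_num) (by linarith)
  have h5 := h2.trans (hC n h4)
  have h6 : Real.logb 2 n = Real.logb 2 n ^ (1 / 10 ^ 10 : ℝ) *
      Real.logb 2 n ^ (1 - 1 / 10 ^ 10 : ℝ) := by
    rw [← Real.rpow_add hl]; simp
  have h7 := mul_lt_mul_of_pos_right h3
    (show 0 < n * Real.logb 2 n ^ (1 - 1 / 10 ^ 10 : ℝ) by positivity)
  nth_rewrite 1 [h6] at h5
  nlinarith

end Vale.Agent.P344
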